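import Crest.Agent.X212.Lab56.Cls
import Crest.Agent.X212.Ms48.Main
import Crest.Agent.X212.Bor5.Th

/-!
# Row 212, layer S (helper56), GEO-MOD: small modules, literal extension, patching

`exists_small` : every module lives in a fixed ambient space; `exists_ext` : a module that is a given one
on a closed set; `exists_patchM`; `Rp e m d` : the frame `e` with the module `m` represents the class `d`.
-/

set_option autoImplicit false
set_option linter.unusedSectionVars false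

open Set Filter Topology Function Matrix Module
open scoped ContDiff Manifold ComplexOrder
open Crest.Agent.X212.Pj41 Crest.Agent.X212.Met55 Crest.Agent.X212.Lab56
open Crest.Agent.X212.Line51 (Uni em)
open Crest.Agent.X212.Bor5.T (Pb)

noncomputable section

namespace Crest.Agent.X212.Gm56

variable {E : Type} [NormedAddCommGroup E] [NormedSpace ℝ E] [FiniteDimensional ℝ E]
  {H : Type} [TopologicalSpace H] {I : ModelWithCorners ℝ E H}
  {M : Type} [TopologicalSpace M] [ChartedSpace H M] [IsManifold I ∞ M]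
  {E' : Type} [NormedAddCommGroup E'] [NormedSpace ℝ E'] [FiniteDimensional ℝ E']
  {H' : Type} [TopologicalSpace H'] {I' : ModelWithCorners ℝ E' H'}
  {N : Type} [TopologicalSpace N] [ChartedSpace H' N] [IsManifold I' ∞ N]
  {ι ι' κ l : Type} [Fintype ι] [Fintype ι'] [Fintype κ] [Fintype l] [DecidableEq ι] [DecidableEq ι']
  [DecidableEq κ] [DecidableEq l]
  {P : M → Matrix ι ι ℝ} {m : C8 M ι κ} {n : C8 M ι l} {O C : Set M} {u w : M → Matrix l κ ℂ}

/-- the image of a module under a partial isometry -/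
def cjM (m : C8 M ι κ) (w : M → Matrix l κ ℂ) : C8 M ι l :=
  ⟨fun x => w x * (w x)ᴴ, fun a x => w x * m.ρ a x * (w x)ᴴ⟩

theorem on_cjM (h : m.On I P O) (sw : ∀ x ∈ O, MSm I w x) (h1 : ∀ x ∈ O, (w x)ᴴ * w x = m.p x)
    (h2 : ∀ x ∈ O, w x * m.p x = w x) : (cjM m w).On I P O ∧ CI I m (cjM m w) w O :=
  have k := fun x hx => (h.pc x hx).push (A := w x) ⟨h1 x hx, rfl, h2 x hx⟩
  ⟨⟨h.p4, fun x hx => (sw x hx).mul (sw x hx).ct,
    fun a x hx => ((sw x hx).mul (h.sρ a x hx)).mul (sw x hx).ct, fun x hx => (k x hx).1⟩,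
    sw, fun x hx => (k x hx).2⟩

/-- literal equality of modules on a set -/
def LE (m m' : C8 M ι κ) (O : Set M) : Prop := ∀ x ∈ O, m'.p x = m.p x ∧ m'.r x = m.r x

theorem LE.on {m' : C8 M ι κ} (e : LE m m' O) (hO : IsOpen O) (h : m.On I P O) : m'.On I P O :=
  have ev := fun x hx => eventually_of_mem (hO.mem_nhds (x := x) hx) e
  ⟨h.p4, fun x hx => (h.sp x hx).congr ((ev x hx).mono fun _ k => k.1),
    fun a x hx => (h.sρ a x hx).congr ((ev x hx).mono fun _ k => congrFun k.2 a),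
    fun x hx => by rw [(e x hx).1, (e x hx).2]; exact h.pc x hx⟩

theorem LE.mono {m' : C8 M ι κ} (e : LE m m' O) (h : C ⊆ O) : LE m m' C := fun x hx => e x (h hx)

theorem LE.symm {m' : C8 M ι κ} (e : LE m m' O) : LE m' m O :=
  fun x hx => ⟨(e x hx).1.symm, (e x hx).2.symm⟩

theorem LE.trans {m' m'' : C8 M ι κ} (e : LE m m' O) (e' : LE m' m'' O) : LE m m'' O :=
  fun x hx => ⟨(e' x hx).1.trans (e x hx).1, (e' x hx).2.trans (e x hx).2⟩

theorem LE.ci {m' : C8 M ι κ} (e : LE m m' O) (h : m.On I P O) : CI I m m' m.p O :=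
  h.refl.of_eq (fun _ _ => ⟨rfl, rfl⟩) e

theorem on_of_local (h : ∀ x ∈ O, ∃ V, x ∈ V ∧ m.On I P V) : m.On I P O := by
  choose! V hV h using h
  exact ⟨fun x hx => (h x hx).p4 x (hV x hx), fun x hx => (h x hx).sp x (hV x hx),
    fun a x hx => (h x hx).sρ a x (hV x hx), fun x hx => (h x hx).pc x (hV x hx)⟩

theorem ci_of_local (h : ∀ x ∈ O, ∃ V, x ∈ V ∧ CI I m n u V) : CI I m n u O := by
  choose! V hV h using h
  exact ⟨fun x hx => (h x hx).sm x (hV x hx), fun x hx => (h x hx).un x (hV x hx)⟩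

/-- **patching** of modules that agree literally on the overlaps -/
theorem exists_patchM {α : Type} {U : α → Set M} (hU : ∀ i, IsOpen (U i)) {k : α → C8 M ι κ}
    (h : ∀ i, (k i).On I P (U i)) (e : ∀ i j, LE (k i) (k j) (U i ∩ U j)) :
    ∃ g : C8 M ι κ, g.On I P (⋃ i, U i) ∧ ∀ i, LE (k i) g (U i) := by
  classical
  let c : ∀ x ∈ ⋃ i, U i, α := fun x hx => (mem_iUnion.1 hx).choose
  have hc : ∀ x hx, x ∈ U (c x hx) := fun x hx => (mem_iUnion.1 hx).choose_spec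
  let g : C8 M ι κ := ⟨fun x => if hx : x ∈ ⋃ i, U i then (k (c x hx)).p x else 0,
    fun a x => if hx : x ∈ ⋃ i, U i then (k (c x hx)).ρ a x else 0⟩
  have hg : ∀ i, LE (k i) g (U i) := fun i x hx => by
    have h1 : x ∈ ⋃ i, U i := mem_iUnion.2 ⟨i, hx⟩
    have h2 := e i _ x ⟨hx, hc x h1⟩
    exact ⟨(dif_pos h1).trans h2.1, funext fun a => (dif_pos h1).trans (congrFun h2.2 a)⟩
  exact ⟨g, on_of_local fun x hx => ⟨_, hc x hx, (hg _).on (hU _) (h _)⟩, hg⟩

/-- patching of intertwiners over disjoint open sets -/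
theorem exists_patchI {α : Type} {U : α → Set M} (hU : ∀ i, IsOpen (U i)) {v : α → M → Matrix l κ ℂ}
    (h : ∀ i, CI I m n (v i) (U i)) (e : ∀ i j, EqOn (v i) (v j) (U i ∩ U j)) :
    ∃ u, CI I m n u (⋃ i, U i) ∧ ∀ i, EqOn u (v i) (U i) := by
  classical
  let c : ∀ x ∈ ⋃ i, U i, α := fun x hx => (mem_iUnion.1 hx).choose
  have hc : ∀ x hx, x ∈ U (c x hx) := fun x hx => (mem_iUnion.1 hx).choose_spec
  let g : M → Matrix l κ ℂ := fun x => if hx : x ∈ ⋃ i, U i then v (c x hx) x else 0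
  have hg : ∀ i, EqOn g (v i) (U i) := fun i x hx =>
    have h1 : x ∈ ⋃ i, U i := mem_iUnion.2 ⟨i, hx⟩
    (dif_pos h1).trans (e _ i ⟨hc x h1, hx⟩)
  exact ⟨g, ci_of_local fun x hx => ⟨_, hc x hx, (h _).congr (hU _) (hg _)⟩, hg⟩

variable (κ) in
/-- the module in the first slot -/
def inl (n : C8 M ι l) : C8 M ι (l ⊕ κ) :=
  ⟨fun x => fromBlocks (n.p x) 0 0 0, fun a x => fromBlocks (n.ρ a x) 0 0 0⟩

theorem rows_mul_ct {k : Type} [Fintype k] (A B : Matrix l k ℂ) :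
    fromRows A (0 : Matrix κ k ℂ) * (fromRows B (0 : Matrix κ k ℂ))ᴴ = fromBlocks (A * Bᴴ) 0 0 0 := by
  rw [conjTranspose_fromRows_eq_fromCols_conjTranspose, fromRows_mul_fromCols]
  simp

theorem cjM_rows {k : Type} [Fintype k] [DecidableEq k] {m : C8 M ι k} {u : M → Matrix l k ℂ} {x : M}
    {w : M → Matrix (l ⊕ κ) k ℂ} (i : Un (m.p x) (m.r x) (n.p x) (n.r x) (u x))
    (hn : ∀ a, n.ρ a x * n.p x = n.ρ a x) (e : w x = fromRows (u x) 0) :
    (cjM m w).p x = (inl κ n).p x ∧ (cjM m w).r x = (inl κ n).r x := by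
  refine ⟨?_, funext fun a => ?_⟩
  · show w x * (w x)ᴴ = _
    rw [e, rows_mul_ct, i.iso.tgt]; rfl
  · show w x * m.ρ a x * (w x)ᴴ = fromBlocks (n.ρ a x) 0 0 0
    rw [e, fromRows_mul, Matrix.zero_mul, rows_mul_ct, i.ρ a, Matrix.mul_assoc, i.iso.tgt, hn]

theorem on_inl (h : n.On I P O) (hO : IsOpen O) :
    (inl κ n).On I P O ∧ CI I n (inl κ n) (fun x => fromRows (n.p x) 0) O := by
  have k := on_cjM (w := fun x => fromRows (n.p x) (0 : Matrix κ l ℂ)) h
    (fun x hx => (h.sp x hx).fromRows (MSm.const _))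
    (fun x hx => by
      rw [conjTranspose_fromRows_eq_fromCols_conjTranspose, fromCols_mul_fromRows, (h.pc x hx).prj.herm,
        (h.pc x hx).prj.idem]; simp)
    fun x hx => by rw [fromRows_mul, (h.pc x hx).prj.idem, Matrix.zero_mul]
  have e : LE (cjM n fun x => fromRows (n.p x) (0 : Matrix κ l ℂ)) (inl κ n) O :=
    LE.symm fun x hx => cjM_rows (u := n.p) (h.pc x hx).refl (h.pc x hx).cl.pr rfl
  exact ⟨e.on hO k.1, k.2.of_eq (fun _ _ => ⟨rfl, rfl⟩) e⟩

/-- **literal extension** : a module isomorphic to `m` that is `n` on the closed set `C` -/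
theorem exists_ext [T2Space M] [SigmaCompactSpace M] (h : m.On I P univ) (hO : IsOpen O)
    (hC : IsClosed C) (hCO : C ⊆ O) (hn : n.On I P O) (i : CI I m n u O) :
    ∃ (g : C8 M ι (l ⊕ κ)) (w : M → Matrix (l ⊕ κ) κ ℂ), g.On I P univ ∧ CI I m g w univ ∧
      LE (inl κ n) g C ∧ ∀ x ∈ C, w x = fromRows (u x) 0 := by
  obtain ⟨χ, hχ⟩ := exists_sqP (I := I) (U := fun b : Bool => cond b O Cᶜ)
    (by rintro (_ | _); exacts [hC.isOpen_compl, hO])
    fun x => (em' (x ∈ C)).elim (fun k => ⟨false, k⟩) fun k => ⟨true, hCO k⟩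
  have hcs : ∀ x, χ true x * χ true x + χ false x * χ false x = 1 := fun x => by
    have := hχ.sq x
    rw [Fintype.sum_bool] at this
    rw [← this]; ring
  have e : ∀ x ∈ C, fromRows (χ true x • u x) (χ false x • m.p x) = fromRows (u x) 0 := fun x hx => by
    have h0 : χ false x = 0 := by_contra fun k => hχ.mem (i := false) k hx
    have h1 := hcs x
    rw [h0, mul_zero, add_zero] at h1
    rw [h0, zero_smul, show χ true x = 1 by nlinarith [hχ.nonneg true x], one_smul]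
  have k := on_cjM (w := fun x => fromRows (χ true x • u x) (χ false x • m.p x)) h
    (fun x hx => (MSm.cutoff (hχ.sm true x) (hχ.supp true) (i.sm x)).fromRows
      (MSm.rsmul (hχ.sm false x) (h.sp x hx)))
    (fun x hx => by
      rw [rows_ct_mul, (h.pc x hx).prj.herm, (h.pc x hx).prj.idem]
      by_cases h0 : χ true x = 0
      · have h1 := hcs x
        rw [h0, mul_zero, zero_add] at h1
        rw [h0, h1, mul_zero, zero_smul, one_smul, zero_add]
      · rw [(i.un x (hχ.mem (i := true) h0)).iso.src, ← add_smul, hcs, one_smul])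
    fun x hx => by
      rw [fromRows_mul, Matrix.smul_mul, Matrix.smul_mul, (h.pc x hx).prj.idem]
      by_cases h0 : χ true x = 0
      · rw [h0, zero_smul, zero_smul]
      · rw [(i.un x (hχ.mem (i := true) h0)).iso.idem]
  exact ⟨_, _, k.1, k.2, fun x hx => cjM_rows (i.un x (hCO hx)) (hn.pc x (hCO hx)).cl.pr (e x hx), e⟩

/-! ### small ambient spaces -/

section small

variable [I.Boundaryless] [SecondCountableTopology M]

theorem step4 {k : ℕ} (hk : finrank ℝ E + 8 < 2 * (k + 1)) {m : C8 M ι (Fin (k + 1))}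
    (h : m.On I P univ) : ∃ (g : C8 M ι (Fin k)) (w : M → Matrix (Fin k) (Fin (k + 1)) ℂ),
      g.On I P univ ∧ CI I m g w univ := by
  obtain ⟨v, hv⟩ := Ms48.avoid (I := I) (A := Fin (k + 1) → Fin 4 → ℂ) (F := Fin 4 → ℂ)
    (G := fun w i => ∑ j, w.1 i j * w.2 j) (by fun_prop)
    (by rw [finrank_pi_fintype, finrank_pi_fintype]; simp; omega)
    (fun x => {w | m.p x *ᵥ w = w}) fun x₀ => by
      obtain ⟨V, s, h1, h2, -, h3⟩ := Pj41.exists_frame (I := I) isOpen_univ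
        (fun y hy => ⟨h.sp y hy, (h.pc y hy).prj⟩) (mem_univ x₀)
      have h4 : (m.p x₀).rank = 4 := by
        have := (h.pc x₀ trivial).prj.trace_eq_rank
        rw [(h.pc x₀ trivial).tr] at this
        exact_mod_cast this.symm
      refine ⟨fun x i j => s x i (Fin.cast h4.symm j), ?_⟩
      filter_upwards [h1.mem_nhds h2] with x hx
      refine ⟨contMDiffAt_pi_space.2 fun i => contMDiffAt_pi_space.2 fun j => (h3 x hx).1 i _,
        fun w hw => ⟨fun j => ((s x)ᴴ *ᵥ w) (Fin.cast h4.symm j), ?_⟩⟩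
      refine Eq.trans ?_ (show m.p x *ᵥ w = w from hw)
      rw [← (h3 x hx).2.tgt, ← mulVec_mulVec]
      funext i
      exact (finCongr h4.symm).sum_comp fun j => s x i j * ((s x)ᴴ *ᵥ w) j
  rcases isEmpty_or_nonempty M with h0 | ⟨⟨x₀⟩⟩
  · exact ⟨⟨0, 0⟩, 0, on_of_local fun x => isEmptyElim x, ci_of_local fun x => isEmptyElim x⟩
  obtain ⟨Q, hQ⟩ := Ms48.exists_drop (v := v) fun h0 => hv x₀ (by simp [h0])
  have hg : ∀ x, (gram (m.p x) (Q * m.p x)).PosDef := fun x =>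
    gram_posDef (h.pc x trivial).prj fun w h1 h2 => by
      rw [← mulVec_mulVec, h1] at h2
      obtain ⟨c, rfl⟩ := hQ w h2
      by_contra h3
      have h4 : c ≠ 0 := fun e => h3 (by simp [e])
      rw [mulVec_smul] at h1
      exact hv x (smul_right_injective _ h4 h1)
  have k := fun x => nrm_src (h.pc x trivial).prj (a := Q * m.p x)
    (by rw [Matrix.mul_assoc, (h.pc x trivial).prj.idem]) (hg x)
  exact ⟨_, _, on_cjM (w := fun x => nrm (m.p x) (Q * m.p x)) h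
    (fun x hx => MSm.nrm (h.sp x hx) ((MSm.const Q).mul (h.sp x hx))
      (Eventually.of_forall fun y => (h.pc y trivial).prj) (hg x)) (fun x _ => (k x).1) fun x _ => (k x).2⟩

/-- **every module lives in `ℂ ^ l`** if `l` has at least six elements (dimension at most four) -/
theorem exists_small (hd : finrank ℝ E ≤ 4) (hl : 6 ≤ Fintype.card l) (h : m.On I P univ) :
    ∃ (g : C8 M ι l) (w : M → Matrix l κ ℂ), g.On I P univ ∧ CI I m g w univ := by
  have key : ∀ k, ∀ m : C8 M ι (Fin (6 + k)), m.On I P univ →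
      ∃ (g : C8 M ι (Fin 6)) (w : M → Matrix (Fin 6) (Fin (6 + k)) ℂ),
        g.On I P univ ∧ CI I m g w univ := fun k => by
    induction k with
    | zero => exact fun m h => ⟨m, m.p, h, h.refl⟩
    | succ k ih =>
      intro m h
      obtain ⟨g, w, h1, h2⟩ := step4 (k := 6 + k) (by omega) h
      obtain ⟨g', w', h3, h4⟩ := ih g h1
      exact ⟨g', _, h3, h2.trans h4⟩
  obtain ⟨k, f, hf⟩ := Ms48.exists_emb κ 6
  have h1 := h.push (Line51.em_iso hf)
  obtain ⟨g, w, h2, h3⟩ := key k _ h1.1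
  obtain ⟨j⟩ := Function.Embedding.nonempty_of_card_le (α := Fin 6) (β := l) (by simpa using hl)
  have h4 := h2.push (Line51.em_iso j.injective)
  exact ⟨_, _, h4.1, (h1.2.trans h3).trans h4.2⟩

end small

/-! ### representatives of classes -/

/-- the frame `e` with the module `m` represents the class `d` -/
def Rp (e : ι → VF I M) (m : C8 M ι κ) (d : Cls I (univ : Set M)) : Prop :=
  ∃ h : (⟨e, m⟩ : Sc I M ι κ).On univ, h.cls = d

variable {e : ι → VF I M} {d : Cls I (univ : Set M)} {e' : ι' → VF I' N} {s : Cls I' (univ : Set N)}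
  {k : C8 N ι' l} {f : N → M} {W : Set N}

theorem Rp.fr (h : Rp e m d) (x : M) : FAt e x := h.1.fr x trivial

theorem Rp.on (h : Rp e m d) : m.On I (fP e) univ := h.1.m

theorem Rp.uniq {d' : Cls I (univ : Set M)} (h : Rp e m d) (h' : Rp e m d') : d = d' :=
  h.2.symm.trans h'.2

theorem rp_cls (he : ∀ x, FAt e x) (h : m.On I (fP e) univ) : ∃ d, Rp e m d :=
  ⟨_, ⟨fun x _ => he x, h⟩, rfl⟩

variable [T2Space M] [SigmaCompactSpace M] [I.Boundaryless]

theorem Rp.of_eqv {w : ι' → VF I M} {g : C8 M ι' l} (h : Rp e m d) (hw : ∀ x, FAt w x)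
    (hg : g.On I (fP w) univ) (i : Eqv (⟨e, m⟩ : Sc I M ι κ) ⟨w, g⟩ univ) : Rp w g d :=
  ⟨⟨fun x _ => hw x, hg⟩, ((cls_eq_iff isOpen_univ h.1 _).2 i).symm.trans h.2⟩

theorem Rp.of_ci (h : Rp e m d) (hn : n.On I (fP e) univ) (i : CI I m n u univ) : Rp e n d :=
  h.of_eqv h.fr hn ⟨u, (iw_iff h.1).2 i⟩

theorem Rp.eqv {w : ι' → VF I M} {g : C8 M ι' l} (h : Rp e m d) (h' : Rp w g d) :
    Eqv (⟨e, m⟩ : Sc I M ι κ) ⟨w, g⟩ univ := (cls_eq_iff isOpen_univ h.1 h'.1).1 (h.2.trans h'.2.symm)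

theorem Rp.ci (h : Rp e m d) (h' : Rp e n d) : ∃ u, CI I m n u univ :=
  let ⟨u, i⟩ := h.eqv h'; ⟨u, (iw_iff h.1).1 i⟩

/-- every class is represented over every frame, in a fixed ambient space -/
theorem exists_rp [SecondCountableTopology M] (hd : finrank ℝ E ≤ 4) (hl : 6 ≤ Fintype.card l)
    (he : ∀ x, FAt e x) (d : Cls I (univ : Set M)) : ∃ n : C8 M ι l, Rp e n d := by
  obtain ⟨_, _, a, h, rfl⟩ := Cls.ind isOpen_univ d
  have h1 := h.tp (w := e) fun x _ => he x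
  obtain ⟨g, w, h2, h3⟩ := exists_small hd hl h1
  exact ⟨g, (Rp.of_eqv ⟨h, rfl⟩ he h1 (Eqv.chg h fun x _ => he x)).of_ci h2 h3⟩

omit [T2Space M] [SigmaCompactSpace M] [I.Boundaryless] in
/-- `Pb` in terms of representatives -/
theorem pb_iff [T2Space N] [SigmaCompactSpace N] [I'.Boundaryless] (hW : IsOpen W) (h : Rp e m d)
    (h' : Rp e' k s) : Pb f W d s ↔ (∀ y ∈ W, IsLocalDiffeomorphAt I' I ∞ f y) ∧
      Eqv ((⟨e, m⟩ : Sc I M ι κ).pull I' f) ⟨e', k⟩ W := by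
  obtain ⟨h, rfl⟩ := h
  obtain ⟨h', rfl⟩ := h'
  have key : ∀ hf : ∀ y ∈ W, IsLocalDiffeomorphAt I' I ∞ f y,
      h.cls.pull hf (mapsTo_univ _ _) = h'.cls.res (subset_univ W) ↔
        Eqv ((⟨e, m⟩ : Sc I M ι κ).pull I' f) ⟨e', k⟩ W := fun hf => by
    rw [pull_cls hW, res_cls, cls_eq_iff hW]
  exact ⟨fun ⟨hf, i⟩ => ⟨hf, (key hf).1 i⟩, fun ⟨hf, i⟩ => ⟨hf, (key hf).2 i⟩⟩

/-- a map that relates the frames pulls the data back to the frame downstairs -/
theorem pull_eq {e' : ι → VF I' N} (hf : ∀ y ∈ W, IsLocalDiffeomorphAt I' I ∞ f y)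
    (hr : ∀ y ∈ W, ∀ a, mfderiv I' I f y (e' a y) = e a (f y)) (m : C8 M ι κ) :
    ((⟨e, m⟩ : Sc I M ι κ).pull I' f).Eq ⟨e', m.comp f⟩ W := fun y hy =>
  ⟨funext fun a => (pbv_unique (hf y hy) (hr y hy a)).symm, rfl, rfl⟩

omit [T2Space M] [SigmaCompactSpace M] [I.Boundaryless] in
theorem on_comp {e' : ι → VF I' N} (h : m.On I (fP e) O) (he : ∀ y ∈ W, FAt e' y)
    (hf : ∀ y ∈ W, IsLocalDiffeomorphAt I' I ∞ f y) (hm : MapsTo f W O)
    (hr : ∀ y ∈ W, ∀ a, mfderiv I' I f y (e' a y) = e a (f y)) : (m.comp f).On I' (fP e') W :=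
  (h.comp (fun y hy => (hf y hy).contMDiffAt) hm).congr fun y hy =>
    fP_rel (hf y hy) (he y hy).sp (hr y hy)

omit [T2Space M] [SigmaCompactSpace M] [I.Boundaryless] in
/-- `Pb` along a map that relates the frames -/
theorem pb_iff_ci [T2Space N] [SigmaCompactSpace N] [I'.Boundaryless] {e' : ι → VF I' N} {k : C8 N ι l}
    (hW : IsOpen W) (h : Rp e m d) (h' : Rp e' k s) (hf : ∀ y ∈ W, IsLocalDiffeomorphAt I' I ∞ f y)
    (hr : ∀ y ∈ W, ∀ a, mfderiv I' I f y (e' a y) = e a (f y)) :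
    Pb f W d s ↔ ∃ u, CI I' (m.comp f) k u W := by
  have e1 : ((⟨e, m⟩ : Sc I M ι κ).pull I' f).Eq ⟨e', m.comp f⟩ W := fun y hy =>
    ⟨funext fun a => (pbv_unique (hf y hy) (hr y hy a)).symm, rfl, rfl⟩
  have h1 : (⟨e', m.comp f⟩ : Sc I' N ι κ).On W :=
    ⟨fun y _ => h'.fr y, on_comp h.on (fun y _ => h'.fr y) hf (mapsTo_univ _ _) hr⟩
  rw [pb_iff hW h h']
  exact ⟨fun ⟨_, i⟩ => let ⟨u, j⟩ := i.of_eq e1 (Sc.Eq.refl _ _); ⟨u, (iw_iff h1).1 j⟩,
    fun ⟨u, j⟩ => ⟨hf, Eqv.of_eq ⟨u, (iw_iff h1).2 j⟩ e1.symm (Sc.Eq.refl _ _)⟩⟩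

end Crest.Agent.X212.Gm56
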