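import Crest.Agent.X212.Gm56.Cnn
import Crest.Agent.X212.Num57.Cof
import Crest.Agent.X212.Line51.An
import Crest.Agent.X212.Nvg56.Cn

/-!
# Row 212, layer S (helper56), GEO-MOD: the curvature of the determinant line

`cur_of_rp`, `cur_ex`, `cur_ac`, `cur_fc` : twice the `u(1)` part of the curvature of an admissible
connection is a curvature form of the class.
-/

set_option autoImplicit false
set_option linter.unusedSectionVars false

open Set Filter Topology Function
open scoped ContDiff Manifold InnerProductSpace Matrix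
open Crest.Agent.R208.F (Ext)
open Crest.Agent.X212.An Crest.Agent.X212.Sob92 Crest.Agent.X212.Lab56 Crest.Agent.X212.Pj41
open Crest.Agent.X212.Wz78 (CC Frm SA frm curv trE)
open Crest.Agent.X212.Met55 (fr_P VF)
open Crest.Agent.X212.Bor5.T (Cur)
open Crest.Agent.X212.Line51 (rl iL Ln eb rm)
open Crest.Agent.X212.Num57 (k1 k2 fm1 fm2)
open Crest.Agent.X212.Dr59 (dM)
open Crest.Agent.X212.M (Mf)

noncomputable section

namespace Crest.Agent.X212.Gm56

section cj
variable {κ : Type} [Fintype κ] [DecidableEq κ]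

variable (κ) in
/-- complex conjugation -/
def cK : En (κ ⊕ κ) := (mx (eb (κ ⊕ κ)) (eb (κ ⊕ κ))).symm (Matrix.fromBlocks 1 0 0 (-1))

theorem rl_cj (A : Matrix κ κ ℂ) : rl (cj A) = cK κ * rl A * cK κ := by
  have : rm (cj A) = Matrix.fromBlocks 1 0 0 (-1) * rm A * Matrix.fromBlocks 1 0 0 (-1) := by
    rw [Line51.rm_apply, Line51.rm_apply, Matrix.fromBlocks_multiply, Matrix.fromBlocks_multiply]
    ext (i | i) (j | j) <;> simp
  rw [Line51.rl_apply, this, mx_symm_mul _ (eb (κ ⊕ κ)), mx_symm_mul _ (eb (κ ⊕ κ))]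
  rfl

theorem cK_sq : cK κ * cK κ = 1 := by
  have := rl_cj (1 : Matrix κ κ ℂ)
  rwa [cj, Matrix.conjTranspose_one, Matrix.transpose_one, Line51.rl_one, mul_one, eq_comm] at this

theorem cK_J : cK κ * iL κ * cK κ = -iL κ := by
  rw [iL, ← rl_cj, ← map_neg]
  congr 1
  ext i j
  by_cases h : i = j <;> simp [h]

theorem cK_trn : trn (cK κ) = cK κ := by
  rw [Line51.trn_eq_ad, cK, ← mx_symm_ct]
  congr 1
  ext (i | i) (j | j) <;> simp [Matrix.one_apply, eq_comm]

theorem cK_skw {A : En (κ ⊕ κ)} (h : Skw A) : Skw (cK κ * A * cK κ) := fun v w => by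
  have k := fun v w => (cK_trn (κ := κ) ▸ Eqv71.inner_trn (cK κ) v w :)
  simp only [mul_apply_eq_comp, k, h _]

theorem cK_comm {A : En (κ ⊕ κ)} (h : iL κ * A = A * iL κ) :
    iL κ * (cK κ * A * cK κ) = cK κ * A * cK κ * iL κ := by
  have e : iL κ = -(cK κ * iL κ * cK κ) := by rw [cK_J, neg_neg]
  have k : ∀ T, cK κ * (cK κ * T) = T := fun T => by rw [← mul_assoc, cK_sq, one_mul]
  conv_lhs => rw [e]
  conv_rhs => rw [e]
  simp only [neg_mul, mul_neg, mul_assoc, k]
  rw [← mul_assoc (iL κ), h, mul_assoc]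

theorem tr_cK (T : En (κ ⊕ κ)) : trE (iL κ * (cK κ * T * cK κ)) = -trE (iL κ * T) := by
  rw [← mul_assoc, Wz78.trE_comm, ← mul_assoc, ← mul_assoc, cK_J, neg_mul, map_neg]

theorem tr_J (A : Matrix κ κ ℂ) : trE (iL κ * rl A) = -2 * A.trace.im := by
  rw [Wz78.trE_eq, ContinuousLinearMap.mul_def, ← Line51.rl_I_smul, Line51.rl_trace]
  simp

end cj

variable {E : Type} [NormedAddCommGroup E] [NormedSpace ℝ E] [FiniteDimensional ℝ E]
  {HM : Type} [TopologicalSpace HM] {I : ModelWithCorners ℝ E HM} [I.Boundaryless]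
  {M : Type} [TopologicalSpace M] [ChartedSpace HM M] [IsManifold I ∞ M]
  {ι κ lam : Type} [Fintype ι] [Fintype κ] [Fintype lam] [DecidableEq ι] [DecidableEq κ]
  {m : C8 M ι κ} {d : Cls I (univ : Set M)}

theorem th_unc {s : M → Matrix (κ × κ) Unit ℂ} {y : M} (h : MSm I s y) (v : E) :
    Num57.e1 (Line51.th I s y) v =
      -trE (iL κ * (trn (rl (unc s y)) * rl (Line51.dm I (unc s) y v))) / 8 := by
  have k0 : MSm I (fun z => mat (s z)) y := fun a b => h (a, b) ()
  have e3 := Line51.dm_smul (g := fun _ => (2 : ℂ)) contMDiffAt_const k0 v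
  rw [Line51.dc_const, _root_.zero_apply, zero_smul, zero_add] at e3
  have e4 := vec_ct_mul (mat (s y)) (Line51.dm I (fun z => mat (s z)) y v)
  rw [Line51.e1_th, ← Line51.rl_ct, ← Line51.rl_mul, tr_J,
    show Line51.dm I (unc s) y v = _ from e3, show (s y)ᴴ * Line51.dm I s y v = _ from e4, unc,
    Matrix.conjTranspose_smul, Matrix.smul_mul, Matrix.mul_smul, Matrix.trace_smul, Matrix.trace_smul]
  generalize ((mat (s y))ᴴ * Line51.dm I (fun z => mat (s z)) y v).trace = z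
  simp [Matrix.trace]
  ring

section cls
variable [T2Space M] [SigmaCompactSpace M] {e : ι → VF I M} {a c c' : M → Ext E}

theorem cur_of_rp (h : Rp e m d) (k : Ln.On I ⟨m.det, a⟩ univ) : Cur d (Ln.F I ⟨m.det, a⟩) := by
  obtain ⟨D, e⟩ := Quot.exists_rep d
  obtain ⟨u, i⟩ := (cls_eq_mk isOpen_univ h.1).1 (h.2.trans e.symm)
  obtain ⟨w, i'⟩ : ∃ w, Line51.Uni I m.det D.d.det w univ := have k := Iw.dm h.1 D.ok i; ⟨_, k⟩
  have j : Line51.Iso I ⟨m.det, a⟩ ⟨D.d.det, a - Line51.th I w⟩ w univ :=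
    ⟨i', fun x _ => add_sub_cancel (Line51.th I w x) (a x)⟩
  exact ⟨D, e, _, j.on isOpen_univ k, funext fun x => (j.F_eq isOpen_univ k trivial).symm⟩

/-- two curvature forms of a class differ by an exact form -/
theorem cur_ex (h : Cur d c) (h' : Cur d c') : ∃ b, Dr59.Sm I univ b ∧ Dr59.Dg 1 univ b ∧
    c' = c + dM I b := by
  obtain ⟨D, rfl, _, k, rfl⟩ := h
  obtain ⟨D', e, _, k', rfl⟩ := h'
  obtain ⟨u, i⟩ := (mk_eq_iff isOpen_univ).1 e.symm
  have j := Iw.dm D.ok D'.ok i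
  exact ⟨_, (j.sm_th.add k'.sa).sub k.sa, ((Line51.dg_th _).add k'.dg).sub k.dg,
    funext fun x => j.F_sub isOpen_univ k k' trivial⟩

end cls

variable [MeasurableSpace E] [BorelSpace E] [MeasurableSpace M] {F : Fr I M ι} {x : M}
  {ν : Type} [Fintype ν]

theorem CA.conj {p : M → En ν} {ρ A : ι → M → En ν} {K : En ν} (h : CA F p ρ A x) (hK : K * K = 1) :
    CA F (fun y => K * p y * K) (fun a y => K * ρ a y * K) (fun a y => K * A a y * K) x := by
  have c : SA I (fun _ : M => K) x := contMDiffAt_const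
  have k : ∀ {f : M → En ν} (a), SA I f x →
      dv I (F.e a) (fun y => K * f y * K) x = K * dv I (F.e a) f x * K := fun a hf => by
    rw [Wz78.dv_mul (c.mul hf) c, Wz78.dv_mul c hf, dv_const]; simp
  have k2 : ∀ S T, K * S * K * (K * T * K) = K * (S * T) * K := fun S T => by
    simp only [mul_assoc]; rw [← mul_assoc K K, hK, one_mul]
  refine ⟨(c.mul h.sp).mul c, fun a => (c.mul (h.sρ a)).mul c, fun a => ?_, fun a b => ?_⟩
  · rw [k a h.sp, k2, k2, ← sub_mul, ← add_mul, ← mul_sub, ← mul_add, h.par, mul_zero, zero_mul]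
  · rw [k a (h.sρ b), k2, k2, ← sub_mul, ← add_mul, ← mul_sub, ← mul_add, h.comp]
    simp only [Finset.mul_sum, Finset.sum_mul, mul_smul_comm, smul_mul_assoc]

theorem p8_on {B : Base M ι lam} (hB : B.OK I) {m : M8 M ι ν} (h : m.On I B.P univ) (x : M) :
    Taub88.P8 (fun i j => B.P i j x) (fun i j k l => B.o i j k l x) (m.p x) m.J fun i => m.ρ i x :=
  ⟨⟨hB.pr x, Wz78.exists_on (hB.pr x) (hB.rk x) (hB.o12 · · · · x) (hB.o23 · · · · x)
    (hB.o34 · · · · x) (hB.oP · · · · x) (hB.onm x), h.cl x trivial, h.psym x trivial,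
    fun a => h.ρsk a x trivial, h.Jsk, fun a => h.Jρ a x trivial, h.Jp x trivial,
    by rw [h.Jsq, neg_one_mul]⟩, h.prk x trivial⟩

theorem on_re (h : m.On I (Met55.fP F.e) univ) : m.re.On I F.P univ := by
  have e : F.P = fun a b x => Met55.fP F.e x a b := by funext a b x; exact fr_P F a b x
  rw [e]; exact h.re

/-- adding a multiple of `J p` -/
theorem AC.add {m : M8 M ι ν} {A : ι → M → En ν} (h : AC F m A) (hm : m.On I F.P univ)
    {α : ι → M → ℝ} (sα : ∀ a, An.Sm I (α a)) (pα : ∀ a x, ∑ j, F.P a j x * α j x = α a x) :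
    AC F m fun a x => A a x + α a x • (m.J * m.p x) := by
  have c := fun x => hm.cl x trivial
  have c1 : ∀ x, m.J * m.p x * m.p x = m.p x * (m.J * m.p x) := fun x => by
    rw [← mul_assoc, ← hm.Jp x trivial]
  have c2 : ∀ b x, m.J * m.p x * m.ρ b x = m.ρ b x * (m.J * m.p x) := fun b x => by
    rw [mul_assoc, (c x).pl, ← mul_assoc, ← hm.Jρ b x trivial, mul_assoc, (c x).pr]
  refine ⟨⟨⟨fun a x => (h.cc.sm a x).add (SA.smul (sα a x) (SA.mul contMDiffAt_const (h.cc.sp x))),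
    fun a x => ?_⟩, h.cc.sp, h.cc.sρ, h.cc.cl, fun a x => ?_, fun a b x => ?_⟩, fun a x => ?_,
    fun a x => ?_⟩
  · simp only [smul_add, Finset.sum_add_distrib, h.cc.proj, smul_smul, ← Finset.sum_smul, pα]
  · rw [add_mul, mul_add, smul_mul_assoc, mul_smul_comm, c1, add_sub_add_right_eq_sub, h.cc.par]
  · rw [add_mul, mul_add, smul_mul_assoc, mul_smul_comm, c2, add_sub_add_right_eq_sub, h.cc.comp]
  · exact (Spn45.skS _).add_mem (h.sk a x) ((Spn45.skS _).smul_mem _
      (Spn45.Sk.mul_sy hm.Jsk (hm.psym x trivial) (hm.Jp x trivial)))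
  · rw [mul_add, add_mul, h.AJ, mul_smul_comm, smul_mul_assoc, mul_assoc, ← hm.Jp x trivial]

variable [BorelSpace M] [SecondCountableTopology M] [T2Space M] [SigmaCompactSpace M]

/-- **the curvature of the determinant line** -/
theorem cur_ac {B : Base M ι lam} (hB : B.OK I) (hP : F.P = B.P) (h : Rp F.e m d)
    {A : ι → M → En (κ ⊕ κ)} (hA : AC F m.re A) : ∃ c, Cur d c ∧ ∀ a b x,
      k2 F c a b x = -trE (iL κ * rl (m.p x) * curv I F.e F.c A a b x) / 4 := by
  let β : ι → M → ℝ := fun a x => -trE (iL κ * rl (m.p x) * A a x) / 4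
  have sβ : ∀ a x, SA I (β a) x := fun a x => (SA.clm trE (SA.mul (SA.mul contMDiffAt_const
    (hA.cc.sp x)) (hA.cc.sm a x))).neg.div_const _
  have kβ : ∀ a x, k1 F (fm1 F β) a x = β a x := fun a x => by
    simp only [Num57.k1_fm1, β]
    conv_rhs => rw [← hA.cc.proj a x]
    simp only [Finset.mul_sum, mul_smul_comm, map_sum, map_smul, smul_eq_mul, neg_div, Finset.sum_div,
      mul_neg, Finset.sum_neg_distrib, mul_div_assoc]
  have D := h.on.det
  have L : Ln.On I ⟨m.det, fm1 F β⟩ univ :=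
    ⟨D.sm, D.prj, D.tr, fun x _ => Num57.smAt_fm1 F (sβ · x), fun x _ => Num57.deg_fm1 F β x⟩
  refine ⟨_, cur_of_rp h L, fun a b x => ?_⟩
  obtain ⟨V, s, α, h1, h2, -, h4, h5, h6, h7⟩ := L.exists_pot isOpen_univ (mem_univ x)
  have i := ci_unc (h.on.bar.mono (subset_univ V)) (h.on.mono (subset_univ V)) h4.toUni
  have ev := h1.eventually_mem h2
  have mb : m.bar.re.On I B.P univ := hP ▸ on_re h.on.bar
  have m0 := on_re h.on
  have ep : ∀ y, m.bar.re.p y = cK κ * rl (m.p y) * cK κ := fun y => rl_cj _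
  have eρ : ∀ a y, m.bar.re.ρ a y = cK κ * rl (m.ρ a y) * cK κ := fun a y => rl_cj _
  set u : M → En (κ ⊕ κ) := fun y => rl (unc s y) with hu
  have uu : ∀ y ∈ V, trn (u y) * u y = cK κ * rl (m.p y) * cK κ := fun y hy =>
    (i.re hy).2.1.trans (ep y)
  have uu' : ∀ y ∈ V, u y * trn (u y) = rl (m.p y) := fun y hy => (i.re hy).2.2.1
  have uJ : ∀ y ∈ V, u y * iL κ = iL κ * u y := fun y hy => (i.re hy).2.2.2.1
  have up : ∀ y ∈ V, u y * (cK κ * rl (m.p y) * cK κ) = u y := fun y hy =>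
    mul_src (uu y hy) (ep y ▸ mb.pidem y trivial) (ep y ▸ mb.psym y trivial)
  have t1 : ∀ y ∈ V, ∀ T, trE (iL κ * (trn (u y) * (T * u y))) = trE (iL κ * rl (m.p y) * T) :=
    fun y hy T => by
      rw [← mul_assoc, ← mul_assoc, Wz78.trE_comm, ← mul_assoc, ← mul_assoc, uJ y hy, mul_assoc (iL κ),
        uu' y hy]
  have t2 : ∀ y ∈ V, ∀ T, trE (iL κ * (trn (u y) * (u y * (cK κ * T * cK κ)))) =
      -trE (iL κ * rl (m.p y) * T) := fun y hy T => by
    rw [← mul_assoc (trn _), uu y hy, mul_assoc (iL κ), ← tr_cK]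
    simp only [mul_assoc]
    rw [← mul_assoc (cK κ) (cK κ), cK_sq, one_mul]
  have key : ∀ y ∈ V, Eqv71.Itw I F.e (fun a y => cK κ * A a y * cK κ + k1 F α a y • iL κ) A u y :=
    fun y hy a => by
      have ey := h1.eventually_mem hy
      have C : CA F m.re.p m.re.ρ A y := ⟨hA.cc.sp y, (hA.cc.sρ · y), (hA.cc.par · y), (hA.cc.comp · · y)⟩
      have k := dif_eq (C.conj cK_sq) C (i.re hy).1
        (by have := p8_on hB mb y; simp only [ep, eρ] at this; exact this) a (cK_skw (hA.sk a y)) (hA.sk a y)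
        (cK_comm (hA.AJ a y)) (hA.AJ a y) Line51.iL_skw (fun b => m0.ρsk b y trivial) (ey.mono uu)
        (uu' y hy) (ey.mono up) (ey.mono fun z hz => by
          rw [show m.re.p z = _ from (uu' z hz).symm, mul_assoc, uu z hz, up z hz]) (ey.mono uJ)
        fun b => ey.mono fun z hz => (((i.re hz).2.2.2.2 b).symm.trans (congrArg _ (eρ b z)))
      have e1 : k1 F α a y = -trE (iL κ * (trn (u y) * F.D a u y)) / 8 + β a y := by
        rw [← kβ, k1, show α y = _ from (h4.par y hy).symm, Num57.e1_add, th_unc (h4.toUni.sm y hy),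
          Pre.D_def, hu, Line51.dv_rl (i.sm y hy)]
        rfl
      change F.D a u y + A a y * u y = u y * (cK κ * A a y * cK κ + k1 F α a y • iL κ)
      change F.D a u y + A a y * u y - u y * (cK κ * A a y * cK κ) = (-trE (iL κ * (trn (u y) *
        (F.D a u y + A a y * u y - u y * (cK κ * A a y * cK κ)))) / 8) •
          (u y * (iL κ * (cK κ * rl (m.p y) * cK κ))) at k
      rw [mul_sub (trn _), mul_add (trn _), mul_sub, mul_add, map_sub, map_add, t1 y hy, t2 y hy,
        cK_comm (Line51.iL_mul _), ← mul_assoc (u y) _ (iL κ), up y hy, sub_eq_iff_eq_add'] at k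
      rw [k, mul_add, mul_smul_comm, e1]
      congr 2
      simp only [β]
      ring
  have sα := fun a => Num57.sa_k1 F (h5 x h2) a
  have c : SA I (fun _ : M => cK κ) x := contMDiffAt_const
  have k := Eqv71.itw_curv (frm F) (ev.mono key) (i.re h2).1 (fun a => ((c.mul (hA.cc.sm a x)).mul c).add
    ((sα a).smul contMDiffAt_const)) (hA.cc.sm · x) a b
  have e2 : curv I F.e F.c (fun a y => cK κ * A a y * cK κ + k1 F α a y • iL κ) a b x =
      cK κ * curv I F.e F.c A a b x * cK κ + k2 F (dM I α) a b x • iL κ := by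
    have k1' : ∀ a b, dv I (F.e a) (fun y => cK κ * A b y * cK κ + k1 F α b y • iL κ) x =
        cK κ * dv I (F.e a) (A b) x * cK κ + F.D a (k1 F α b) x • iL κ := fun a b => by
      rw [Wz78.dv_add' ((c.mul (hA.cc.sm b x)).mul c) ((sα b).smul contMDiffAt_const),
        Wz78.dv_mul (c.mul (hA.cc.sm b x)) c, Wz78.dv_mul c (hA.cc.sm b x),
        dv_smul (sα b).md mdifferentiableAt_const, dv_const, dv_const]
      simp [Pre.D_def]
    have k2' : ∀ S T, cK κ * S * cK κ * (cK κ * T * cK κ) = cK κ * (S * T) * cK κ := fun S T => by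
      simp only [mul_assoc]; rw [← mul_assoc (cK κ) (cK κ), cK_sq, one_mul]
    have k3 := fun a => cK_comm (hA.AJ a x)
    rw [Num57.k2_dM F (h5 x h2) (ev.mono h6)]
    simp only [curv, k1', add_mul, mul_add, k2', smul_mul_assoc, mul_smul_comm, k3, mul_sub, sub_mul,
      Finset.mul_sum, Finset.sum_mul, smul_add, Finset.sum_add_distrib, sub_smul, Finset.sum_smul,
      smul_smul]
    module
  have e3 := congrArg (fun T => trE (iL κ * (trn (u x) * T))) k
  simp only [e2, ← ContinuousLinearMap.mul_def, mul_add, mul_smul_comm, map_add, map_smul,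
    t1 x h2, t2 x h2] at e3
  rw [← mul_assoc (trn _), uu x h2, ← cK_comm (Line51.iL_mul _), ← mul_assoc, Line51.iL_sq,
    neg_one_mul, map_neg, ← ep, Wz78.trE_eq (m.bar.re.p x), mb.prk x trivial, smul_eq_mul] at e3
  rw [k2, h7 h2, ← k2]
  linarith

section bg
open Crest.Agent.X212.Sw
variable {κ l : Type} [Fintype κ] [DecidableEq κ] [Fintype l] [DecidableEq l] {X : Mf 4} {nc : ℕ}
  {b : Bg X.I X.M κ lam (l ⊕ l) nc} {m : C8 X.M (Option κ) l} {d : Cls X.I (univ : Set X.M)}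

/-- **twice the `u(1)` curvature of a configuration is a curvature form of the class** -/
theorem cur_fc (hb : b.OK) (e : b.m = m.re) (h : Rp b.F.e m d) {c : Cfg X.M κ (l ⊕ l)}
    (sa : ∀ i, An.Sm X.I (c.a i)) (pa : ∀ i x, ∑ j, b.B.P i j x * c.a j x = c.a i x) :
    ∃ f, Cur d f ∧ ∀ x s, k2 b.F f s.1 s.2 x = 2 * b.fc c x s := by
  have hA : AC b.F b.m (b.W c) := AC.add ⟨hb.G.P ▸ hb.cc, hb.sk, hb.AJ⟩ (hb.G.P ▸ hb.m) sa (hb.G.P ▸ pa)
  have := scs (I := X.I) (M := X.M)
  obtain ⟨f, h1, h2⟩ := cur_ac hb.B hb.G.P h (e ▸ hA)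
  refine ⟨f, h1, fun x s => (h2 _ _ x).trans ?_⟩
  have := Wz78.inner_hsL_skw (S := b.jp x)
    (Spn45.Sk.mul_sy hb.m.Jsk (hb.m.psym x trivial) (hb.m.Jp x trivial))
  simp only [Bg.fc, this]
  rw [Bg.jp, e]
  show _ = 2 * (1 / 8 * -trE (iL l * rl (m.p x) * _))
  ring

end bg

end Crest.Agent.X212.Gm56
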