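import Crest.Agent.X212.Gm56.Nck
import Crest.Agent.X212.Flo2.Iso
import Crest.Agent.X212.Pj41.Cm
import Crest.Agent.X212.Spn45.Fam
import Crest.Agent.X212.Taub88.Pt8
import Crest.Agent.X212.Tmp64.Sq
import Crest.Agent.X212.Wz78.Hs

/-!
# Row 212, layer S (helper56), GEO-MOD: connections and isomorphisms of backgrounds

`cn` : the canonical connection of a real module.  `pb_iff_geq` : classes along an equivalence of
geometries.  `MI0` : the module part of `Bg.Iso`.  `MI0.iso` : the shift of the connection.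
-/

set_option autoImplicit false
set_option linter.unusedSectionVars false

open Set Filter Topology Function
open scoped ContDiff Manifold InnerProductSpace
open Crest.Agent.X212.An Crest.Agent.X212.Sob92 Crest.Agent.X212.Lab56 Crest.Agent.X212.Pj41
open Crest.Agent.X212.Wz78 (CC Cl Frm SA frm lc_gam sep omA)
open Crest.Agent.X212.Spn45 (w1 w2 th CD omG)
open Crest.Agent.X212.Met55 (fr_P pre_sp fM pbv atx FAt)
open Crest.Agent.X212.Prm93 (SB Mix)
open Crest.Agent.X212.Bor5.T (Pb)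
open Crest.Agent.X212.Cyf70 (IC ce cyl cc)
open Crest.Agent.X212.Nd18 (ca)
open Crest.Agent.X212.Line51 (rl iL)
open Crest.Agent.X212.M (Mf)

noncomputable section

namespace Crest.Agent.X212.Gm56

/-! ### Schur's lemma in real rank eight (after `Idg99.schur8`) -/

section pt
variable {ι : Type} [Fintype ι] {P : ι → ι → ℝ} {o : ι → ι → ι → ι → ℝ}
  {X : Type} [NormedAddCommGroup X] [InnerProductSpace ℝ X] [FiniteDimensional ℝ X]
  {p J : X →L[ℝ] X} {ρ : ι → X →L[ℝ] X}

theorem schur8 (h : Taub88.P8 P o p J ρ) {S : X →L[ℝ] X} (hs : ∀ v w, ⟪S v, w⟫_ℝ = ⟪v, S w⟫_ℝ)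
    (hρ : ∀ a, S * ρ a = ρ a * S) (hp : S * p = S) : ∃ r : ℝ, S = r • p := by
  obtain ⟨u, hu, h1⟩ : ∃ u, Taub88.pp o p ρ u = u ∧ ⟪u, u⟫_ℝ = 1 := by
    obtain ⟨v, hv⟩ : ∃ v, Taub88.pp o p ρ v ≠ 0 := by
      by_contra hn
      have := h.tr_pp
      rw [show Taub88.pp o p ρ = 0 from ContinuousLinearMap.ext fun v =>
        not_not.1 fun k => hn ⟨v, k⟩] at this
      simp [Taub88.tr] at this
    refine ⟨‖Taub88.pp o p ρ v‖⁻¹ • Taub88.pp o p ρ v, ?_, ?_⟩
    · rw [map_smul, ← mul_apply_eq_comp, h.pp_pp]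
    · rw [real_inner_self_eq_norm_sq, norm_smul, norm_inv, norm_norm,
        inv_mul_cancel₀ (norm_ne_zero_iff.2 hv), one_pow]
  have c : ∀ a v, S (ρ a v) = ρ a (S v) := fun a v => DFunLike.congr_fun (hρ a) v
  have hp' : p * S = S := ContinuousLinearMap.ext fun v => ext_inner_left ℝ fun w => by
    rw [mul_apply_eq_comp, ← h.ps, ← hs, ← mul_apply_eq_comp, hp, hs]
  have ho : omA o ρ * S = S * omA o ρ := by
    have h4 : ∀ a b c d, S * (ρ a * ρ b * ρ c * ρ d) = ρ a * ρ b * ρ c * ρ d * S := fun a b c d => by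
      simp only [← mul_assoc, hρ]
      simp only [mul_assoc, hρ]
    simp only [omA, Finset.mul_sum, Finset.sum_mul, mul_smul_comm, smul_mul_assoc, h4]
  have e1 : Taub88.pp o p ρ (S u) = S u := by
    rw [← mul_apply_eq_comp, Taub88.pp, smul_mul_assoc, sub_mul, hp', ho]
    nth_rewrite 1 [← hp]
    rw [← mul_sub, ← mul_smul_comm]
    exact congrArg S hu
  have e2 : ∀ a b, ⟪ρ a (ρ b u), S u⟫_ℝ = -⟪u, S u⟫_ℝ * P a b := fun a b => by
    have k : ⟪ρ b (ρ a u), S u⟫_ℝ = ⟪ρ a (ρ b u), S u⟫_ℝ := by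
      rw [h.ρs b, h.ρs a, ← c, ← c, ← hs, real_inner_comm, neg_neg]
    have := congrArg (⟪·, S u⟫_ℝ) (h.rel a b u)
    simp only [inner_sub_left, inner_neg_left, real_inner_smul_left, k, h.p_of hu] at this
    linarith
  have e3 := h.par2 hu (S u)
  have e0 := DFunLike.congr_fun h.sum_sq u
  have e6 : ∀ a, ∑ b, P a b • ρ a (ρ b u) = ρ a (ρ a u) := fun a => by
    simpa only [map_sum, map_smul] using congrArg (ρ a) (h.sum_ρ a u)
  simp only [_root_.sum_apply, mul_apply_eq_comp, smul_apply, h.p_of hu] at e0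
  simp only [e1, e2, h1, mul_smul, ← Finset.smul_sum, e6, e0] at e3
  have e4 : S u = ⟪u, S u⟫_ℝ • u := by linear_combination (norm := module) (-1 / 4 : ℝ) • e3
  generalize ⟪u, S u⟫_ℝ = r at e4
  refine ⟨r, ContinuousLinearMap.ext fun v => ?_⟩
  have := h.ext8 hu h1 (X := S - r • 1) (fun a => by simp [c, e4]) (fun a b => by simp [c, e4]) v
  rw [sub_apply, sub_eq_zero, ← mul_apply_eq_comp, hp] at this
  exact this

/-- skew operators of the commutant are multiples of `J p` -/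
theorem schur_sk (h : Taub88.P8 P o p J ρ) {T : X →L[ℝ] X} (hs : ∀ v w, ⟪T v, w⟫_ℝ = -⟪v, T w⟫_ℝ)
    (hρ : ∀ a, T * ρ a = ρ a * T) (hJ : J * T = T * J) (hp : T * p = T) :
    T = (-Taub88.tr (J * T) / 8) • (J * p) := by
  obtain ⟨r, e⟩ := schur8 h (S := J * T)
    (fun v w => by rw [mul_apply_eq_comp, h.Js, hs, neg_neg, hJ, mul_apply_eq_comp])
    (fun a => by rw [mul_assoc, hρ, ← mul_assoc, h.Jρ, mul_assoc]) (by rw [mul_assoc, hp])
  have e2 : T * (J * J * p) = J * (J * T) := by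
    rw [← mul_assoc, ← mul_assoc, ← hJ, mul_assoc J T, ← hJ, mul_assoc, mul_assoc, hp]
  rw [h.JJ, mul_neg, hp, e, mul_smul_comm] at e2
  rw [e, Taub88.tr_smul, h.rk, ← neg_neg T, e2, ← neg_smul]
  congr 1; ring

end pt

variable {E : Type} [NormedAddCommGroup E] [NormedSpace ℝ E] [FiniteDimensional ℝ E]
  [MeasurableSpace E] [BorelSpace E]
  {HM : Type} [TopologicalSpace HM] {I : ModelWithCorners ℝ E HM}
  {M : Type} [TopologicalSpace M] [ChartedSpace HM M] [IsManifold I ∞ M] [MeasurableSpace M]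
  {E' : Type} [NormedAddCommGroup E'] [NormedSpace ℝ E'] [FiniteDimensional ℝ E']
  [MeasurableSpace E'] [BorelSpace E']
  {HM' : Type} [TopologicalSpace HM'] {I' : ModelWithCorners ℝ E' HM'}
  {M' : Type} [TopologicalSpace M'] [ChartedSpace HM' M'] [IsManifold I' ∞ M'] [MeasurableSpace M']
  {ι ν lam : Type} [Fintype ι] [Fintype ν] [Fintype lam]

theorem fr_fAt (F : Fr I M ι) (x : M) : FAt F.e x := ⟨fun a => F.sm a x, pre_sp F.toPre x⟩

/-! ### the canonical connection -/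

section cn
variable {F : Fr I M ι} {F' : Fr I' M' ι} {m : M8 M ι ν} {m' : M8 M' ι ν} {x : M}

/-- the canonical connection -/
def cn (F : Fr I M ι) (m : M8 M ι ν) : ι → M → En ν := w2 I F.e F.Gam m.p m.ρ

/-- admissible connections: the rows `cc, sk, AJ` of `Bg.OK` -/
structure AC (F : Fr I M ι) (m : M8 M ι ν) (A : ι → M → En ν) : Prop where
  cc : CC I F.e F.P F.Gam m.p m.ρ A
  sk : ∀ i x, Skw (A i x)
  AJ : ∀ i x, m.J * A i x = A i x * m.J

theorem ac_cn (h : m.On I F.P univ) (h4 : ∀ x, ∑ a, F.P a a x = 4) : AC F m (cn F m) :=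
  have D : CD I m.p m.ρ F.P := ⟨fun x => h.sp x trivial, fun a x => h.sρ a x trivial,
    fun x => h.cl x trivial, fun x => h.pidem x trivial, h4⟩
  ⟨D.cc (frm F) (lc_gam F) (sep F), D.w2_sk (frm F) (lc_gam F) (fun x => h.psym x trivial)
    fun a x => h.ρsk a x trivial, D.w2_comm (fun x => h.Jp x trivial) fun a x => h.Jρ a x trivial⟩

theorem cb_cn (hP : ∀ a b, F.Cb (F.P a b)) (hc : ∀ a b k, F.Cb (F.c a b k)) (hp : F.Cb m.p)
    (hρ : ∀ a, F.Cb (m.ρ a)) (a : ι) : F.Cb (cn F m a) :=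
  Spn45.kl_w2 (K := Std94.cbK F.toPre) (φ := id) (e := fun _ => F.e) (Γ := fun _ => F.Gam) hp hρ
    (Cb_D hp) (fun a b => Cb_D (hρ b) a) (Spn45.cb_Gam hP hc) a

theorem sb_cn {T : Type} [NormedAddCommGroup T] [NormedSpace ℝ T] {Q : Set T} {G : T → Fr I M ι}
    {S : T → M → ι → ι → ℝ} (hP0 : ∀ a b, F.Cb (F.P a b)) (hP : ∀ t ∈ Q, (G t).P = F.P)
    (mix : ∀ t ∈ Q, Mix F.toPre (G t).toPre fun a b x => S t x a b)
    (sS : ∀ a b, SB F.toPre Q fun t x => S t x a b)
    (sc : ∀ a b k, SB F.toPre Q fun t => (G t).c a b k) (hp : F.Cb m.p) (hρ : ∀ a, F.Cb (m.ρ a))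
    (a : ι) : SB F.toPre Q fun t => cn (G t) m a :=
  Spn45.kl_w2 (K := Spn45.sbK F.toPre Q) (φ := Prod.snd) (e := fun z => (G z.1).e)
    (Γ := fun z => (G z.1).Gam) (SB.fixed hp) (fun a => SB.fixed (hρ a))
    (fun a => SB.D' (G := fun t => (G t).toPre) (A := fun a b t x => S t x a b) (f := fun _ => m.p)
      mix sS (SB.fixed hp) a)
    (fun a b => SB.D' (G := fun t => (G t).toPre) (A := fun a b t x => S t x a b)
      (f := fun _ => m.ρ b) mix sS (SB.fixed (hρ b)) a) (Spn45.sb_Gam hP0 hP mix sS sc) a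

/-- the canonical connection is natural under literal maps -/
theorem cn_lit [I.Boundaryless] [I'.Boundaryless] {ψ : M → M'} {O : Set M} (h : FRel F F' ψ O)
    (hp : ∀ y ∈ O, m.p y = m'.p (ψ y)) (hρ : ∀ a, ∀ y ∈ O, m.ρ a y = m'.ρ a (ψ y)) (hx : x ∈ O)
    (a : ι) : cn F m a x = cn F' m' a (ψ x) := by
  have e1 := h.D hx a ((h.op.eventually_mem hx).mono hp)
  have e2 := fun b => h.D hx a ((h.op.eventually_mem hx).mono (hρ b))
  simp only [Pre.D_def] at e1 e2
  simp only [cn, w2, w1, th, e1, e2, hp x hx, fun a => hρ a x hx, h.Gam hx]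

end cn

section cyl
variable {Y : Type} [TopologicalSpace Y] [ChartedSpace HM Y] [IsManifold I ∞ Y] [T2Space Y]
  [MeasurableSpace Y] [BorelSpace Y] [SigmaCompactSpace Y] [I.Boundaryless]

theorem dv_fst {N : Type} [NormedAddCommGroup N] [NormedSpace ℝ N]
    {e : ι → Π y : Y, TangentSpace I y} (s : Y → N) (a : Option ι) :
    dv (IC I) (ce e a) (fun x => s x.1) = ca (fun a => dv I (e a) s) a := funext fun x => by
  by_cases h : MDifferentiableAt I 𝓘(ℝ, N) s x.1
  · have h1 := h.comp x (mdifferentiableAt_fst (I' := 𝓘(ℝ, ℝ)))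
    cases a with
    | none => exact (Cyf70.dv_none h1).trans (deriv_const x.2 (s x.1))
    | some a => exact Cyf70.dv_some h1 a
  · have h1 : ¬MDifferentiableAt (IC I) 𝓘(ℝ, N) (fun x : Y × ℝ => s x.1) x :=
      fun k => h (Cyf70.mdiff_slice_fst k)
    cases a <;> simp only [Sob92.dv, ca, mfderiv_zero_of_not_mdifferentiableAt h,
      mfderiv_zero_of_not_mdifferentiableAt h1] <;> rfl

/-- the module of the cylinder -/
abbrev mZ (m : M8 Y (Option ι) ν) : M8 (Y × ℝ) (Option ι) ν :=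
  ⟨m.J, fun x => m.p x.1, fun i x => m.ρ i x.1⟩

/-- the canonical connection of a cross-section -/
def cnY (F : Fr I Y ι) (m : M8 Y (Option ι) ν) (k : ι) (y : Y) : En ν :=
  cn (cyl F) (mZ m) (some k) (y, 0)

/-- the canonical connection of a cylinder is temporal and static -/
theorem cn_cyl (F : Fr I Y ι) (m : M8 Y (Option ι) ν) : cn (cyl F) (mZ m) = ca (cnY F m) := by
  funext a x
  have e : (cyl F).e = ce F.e := rfl
  cases a with
  | none => simp [cn, w2, w1, th, e, dv_fst, ca, Tmp64.gam_cyl, cc, Spn45.omG_zero]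
  | some k =>
    have h : ∀ b l, cc F.Gam (some k) b l x = cc F.Gam (some k) b l (x.1, 0) := fun b l => by
      cases b <;> cases l <;> rfl
    simp only [cnY, cn, w2, w1, th, e, dv_fst, ca, Tmp64.gam_cyl, h]

end cyl

/-! ### equivalences of geometries -/

/-- a compatible connection at a point -/
structure CA (F : Fr I M ι) (p : M → En ν) (ρ A : ι → M → En ν) (x : M) : Prop where
  sp : SA I p x
  sρ : ∀ a, SA I (ρ a) x
  par : ∀ a, dv I (F.e a) p x + (A a x * p x - p x * A a x) = 0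
  comp : ∀ a b, dv I (F.e a) (ρ b) x + (A a x * ρ b x - ρ b x * A a x) = ∑ k, F.Gam a b k x • ρ k x

section geq
variable {B : Base M ι lam} {G : Geo I M ι lam} {B' : Base M' ι lam} {G' : Geo I' M' ι lam}
  {φ : OpenPartialHomeomorph M M'} {U : M → ι → ι → ℝ} {v : M → En lam} {x : M}
  (g : GEq B G B' G' φ U v) (hG : G.F.P = B.P) (hG' : G'.F.P = B'.P)
include g hG hG'

theorem CA.pull (hx : x ∈ φ.source) {p : M' → En ν} {ρ A : ι → M' → En ν}
    (cl : ∀ a, ∑ b, B'.P a b (φ x) • ρ b (φ x) = ρ a (φ x)) (h : CA G'.F p ρ A (φ x)) :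
    CA G.F (fun y => p (φ y)) (fun a y => ∑ b, U y b a • ρ b (φ y))
      (fun a y => ∑ b, U y b a • A b (φ y)) x := by
  have R := geq_rot g
  have F : Frm I G.F.e B.P G.F.c := hG ▸ frm G.F
  have s1 := fun b' => R.sa_comp hx (h.sρ b')
  have e0 : ∀ b, ∑ a, U x b a • ∑ k, U x k a • ρ k (φ x) = ρ b (φ x) := fun b => by
    simp only [Finset.smul_sum, smul_smul]
    rw [Finset.sum_comm, ← cl b]
    exact Finset.sum_congr rfl fun b' _ => by rw [← Finset.sum_smul, g.UU' x hx]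
  refine ⟨R.sa_comp hx h.sp, fun a => SA.sum _ fun b _ => (R.sU b a x hx).smul (s1 b),
    fun a => ?_, fun a b => ?_⟩
  · rw [R.D F hx a h.sp.md, Finset.sum_mul, Finset.mul_sum, ← Finset.sum_sub_distrib,
      ← Finset.sum_add_distrib]
    refine Finset.sum_eq_zero fun b _ => ?_
    rw [smul_mul_assoc, mul_smul_comm, ← smul_sub, ← smul_add, h.par, smul_zero]
  · have e1 : dv I (G.F.e a) (fun y => ∑ b', U y b' b • ρ b' (φ y)) x =
        ∑ b', G.F.D a (fun y => U y b' b) x • ρ b' (φ x) +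
          ∑ a', ∑ b', (U x a' a * U x b' b) • dv I' (G'.F.e a') (ρ b') (φ x) := by
      rw [Wz78.dv_sum' _ fun b' => (R.sU b' b x hx).smul (s1 b'), Finset.sum_comm,
        ← Finset.sum_add_distrib]
      refine Finset.sum_congr rfl fun b' _ => ?_
      rw [dv_smul (R.sU b' b x hx).md (s1 b').md, R.D F hx a (h.sρ b').md, Finset.smul_sum]
      simp only [smul_smul, mul_comm (U x b' b)]
      rfl
    have e2 : ∑ k, G.F.Gam a b k x • ∑ b', U x b' k • ρ b' (φ x) =
        ∑ b', G.F.D a (fun y => U y b' b) x • ρ b' (φ x) +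
          ∑ a', ∑ b', (U x a' a * U x b' b) • ∑ k', G'.F.Gam a' b' k' (φ x) • ρ k' (φ x) := by
      simp only [geq_gam g hG hG' hx, add_smul, Finset.sum_add_distrib, Finset.sum_smul]
      congr 1
      · rw [Finset.sum_comm]
        refine Finset.sum_congr rfl fun b' _ => ?_
        conv_rhs => rw [← e0 b', Finset.smul_sum]
        simp only [smul_smul]
      · rw [Finset.sum_comm]
        refine Finset.sum_congr rfl fun a' _ => ?_
        rw [Finset.sum_comm]
        refine Finset.sum_congr rfl fun b' _ => ?_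
        rw [Finset.sum_comm, Finset.smul_sum]
        refine Finset.sum_congr rfl fun k' _ => ?_
        conv_rhs => rw [← e0 k', Finset.smul_sum, Finset.smul_sum]
        exact Finset.sum_congr rfl fun k _ => by rw [smul_smul, smul_smul]; congr 1; ring
    rw [e1, e2, add_assoc, Finset.sum_mul_sum, Finset.sum_mul_sum,
      Finset.sum_comm (f := fun b' a' => U x b' b • ρ b' (φ x) * U x a' a • A a' (φ x)),
      ← Finset.sum_sub_distrib, ← Finset.sum_add_distrib]
    congr 1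
    refine Finset.sum_congr rfl fun a' _ => ?_
    rw [← Finset.sum_sub_distrib, ← Finset.sum_add_distrib]
    refine Finset.sum_congr rfl fun b' _ => ?_
    rw [smul_mul_smul_comm, smul_mul_smul_comm, mul_comm (U x b' b), ← smul_sub, ← smul_add, h.comp]

variable [DecidableEq ι] [I.Boundaryless] [I'.Boundaryless]

theorem pol_geq (hx : x ∈ φ.source) :
    pol (fun a => pbv I I' φ (G'.F.e a)) G.F.e x = Matrix.of (U x) := by
  have R := geq_rot g
  have ld := Met55.ld_of_oph g.sm g.sm' hx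
  have hw := (fr_fAt G'.F (φ x)).pbv ld
  have e1 : Met55.fP (fun a => pbv I I' φ (G'.F.e a)) x = Matrix.of fun a b => B'.P a b (φ x) := by
    rw [Met55.fP_rel ld hw.sp fun a => Met55.pbv_rel ld _]
    ext a b; rw [← fr_P, hG']; rfl
  have e2 : Met55.fP G.F.e x = Matrix.of fun a b => B.P a b x := by ext a b; rw [← fr_P, hG]; rfl
  have e3 : atx G.F.e x = Met55.mix (Matrix.of (U x)).transpose
      (atx (fun a => pbv I I' φ (G'.F.e a)) x) := funext fun a => (Met55.ld_bij ld).1 <| by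
    refine (R.fr' (hG ▸ frm G.F) hx a).trans ?_
    simp only [← Met55.pbv_rel ld, ← map_smul, ← map_sum]
    rfl
  have e4 : fM (fun a => pbv I I' φ (G'.F.e a)) G.F.e x = Matrix.of (U x) := by
    rw [fM, e3, Met55.tm_mix, Matrix.transpose_transpose]
    refine (congrArg (· * _) e1).trans ?_
    ext a b
    rw [Matrix.mul_apply, Matrix.of_apply, ← R.PU (hG' ▸ frm G'.F) hx a b]
    exact Finset.sum_congr rfl fun k _ => by
      rw [mul_comm, ((hG' ▸ frm G'.F : Frm I' G'.F.e B'.P G'.F.c).pr _).symm k a]; rfl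
  rw [pol_of_piso, e4]
  rw [e4, e1, e2]
  refine ⟨?_, ?_, ?_⟩ <;> ext a b
  exacts [g.UU x hx a b, g.UU' x hx a b, R.UP (hG ▸ frm G.F) hx a b]

variable {κ l : Type} [Fintype κ] [Fintype l] [DecidableEq κ] [DecidableEq l]
  {m : C8 M ι κ} {m' : C8 M' ι l} {W : Set M}

/-- the module upstairs in the frame downstairs -/
theorem on_geq (hW : W ⊆ φ.source) (h' : m'.On I' (Met55.fP G'.F.e) univ) :
    ((m'.comp φ).rot fun x => Matrix.of (U x)).On I (Met55.fP G.F.e) W := by
  have k := (Sc.On.pull (d := ⟨G'.F.e, m'⟩) ⟨fun x _ => fr_fAt _ x, h'⟩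
    (fun y hy => Met55.ld_of_oph g.sm g.sm' (hW hy)) (mapsTo_univ _ _)).tp
    (w := G.F.e) fun x _ => fr_fAt _ x
  refine ⟨k.p4, k.sp, fun a x hx => msm_rot (m := m'.comp φ) (fun b a => (geq_rot g).sU b a x (hW hx))
    (fun a => (h'.sρ a _ trivial).comp ((geq_rot g).sφ x (hW hx))) a, fun x hx => ?_⟩
  have := k.pc x hx
  rwa [show (Sc.tp _ G.F.e).r x = Lab56.rot (pol _ G.F.e x) _ from rfl, Sc.pull,
    pol_geq g hG hG' (hW hx)] at this

/-- **classes along an equivalence of geometries** -/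
theorem pb_iff_geq [T2Space M] [SigmaCompactSpace M] {d : Cls I (univ : Set M)}
    {d' : Cls I' (univ : Set M')} (hW : IsOpen W) (hs : W ⊆ φ.source) (h : Rp G.F.e m d)
    (h' : Rp G'.F.e m' d') :
    Pb φ W d' d ↔ ∃ u, CI I m ((m'.comp φ).rot fun x => Matrix.of (U x)) u W := by
  have k := on_geq g hG hG' hs h'.on
  have e : ∀ x ∈ W, ((m'.comp φ).rot fun x => Matrix.of (U x)).r x =
      (((⟨G'.F.e, m'⟩ : Sc I' M' ι l).pull I φ).tp G.F.e).r x := fun x hx =>
    congrArg (Lab56.rot · _) (pol_geq g hG hG' (hs hx)).symm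
  rw [pb_iff hW h' h]
  exact ⟨fun ⟨_, u, i⟩ => ⟨_, CI.symm k (h.on.mono (subset_univ _))
      (CI.of_eq i (fun x hx => ⟨rfl, e x hx⟩) fun _ _ => ⟨rfl, rfl⟩)⟩,
    fun ⟨u, i⟩ => ⟨fun y hy => Met55.ld_of_oph g.sm g.sm' (hs hy), _,
      CI.of_eq (i.symm (h.on.mono (subset_univ _)) k) (fun x hx => ⟨rfl, (e x hx).symm⟩)
        fun _ _ => ⟨rfl, rfl⟩⟩⟩

end geq

/-! ### the difference of two compatible connections -/

section dif
variable [DecidableEq ν] {F : Fr I M ι} {p q u : M → En ν} {ρ σ A W : ι → M → En ν} {J J' : En ν}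
  {x : M}

theorem mul_src {p u : En ν} (h : trn u ∘L u = p) (hp : p * p = p) (hs : Sym p) : u * p = u := by
  have h' : trn u * u = p := h
  have : star (u * p - u) * (u * p - u) = 0 := by
    rw [star_sub, star_mul, show star p = p from Eqv71.trn_of_sym hs, show star u = trn u from rfl, sub_mul,
      mul_sub, mul_sub, mul_assoc p, ← mul_assoc (trn u), h', mul_assoc p, h', hp, hp, sub_self]
  exact sub_eq_zero.1 ((CStarRing.star_mul_self_eq_zero_iff _).1 this)

theorem dif_eq {P : ι → ι → ℝ} {o : ι → ι → ι → ι → ℝ} (C : CA F p ρ A x) (D : CA F q σ W x)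
    (su : SA I u x) (h8 : Taub88.P8 P o (p x) J fun a => ρ a x) (a : ι) (sk : Skw (A a x))
    (sk' : Skw (W a x)) (AJ : J * A a x = A a x * J) (WJ : J' * W a x = W a x * J') (J's : Skw J')
    (σs : ∀ b, Skw (σ b x)) (uu : ∀ᶠ y in 𝓝 x, trn (u y) ∘L u y = p y)
    (uu' : u x ∘L trn (u x) = q x) (up : ∀ᶠ y in 𝓝 x, u y * p y = u y)
    (qu : ∀ᶠ y in 𝓝 x, q y * u y = u y) (hJ : ∀ᶠ y in 𝓝 x, u y * J = J' * u y)
    (hρ : ∀ b, ∀ᶠ y in 𝓝 x, σ b y * u y = u y * ρ b y) :
    F.D a u x + W a x * u x - u x * A a x = (-Wz78.trE (J * (trn (u x) *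
      (F.D a u x + W a x * u x - u x * A a x))) / 8) • (u x * (J * p x)) := by
  have c := fun {f g : M → En ν} (h : ∀ᶠ y in 𝓝 x, f y = g y) => dv_congr (I := I) (e := F.e a) h
  have e1 := c up
  have e2 := c qu
  have e3 := c hJ
  have e4 := fun b => c (hρ b)
  have e5 := c (f := fun y => trn (u y) * u y) uu
  have p1 := eq_neg_of_add_eq_zero_left (C.par a)
  have p2 := eq_neg_of_add_eq_zero_left (D.par a)
  have u1 := up.self_of_nhds
  have u2 := qu.self_of_nhds
  have u3 := hJ.self_of_nhds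
  have u4 := fun b => (hρ b).self_of_nhds
  have u5 : trn (u x) * u x = p x := uu.self_of_nhds
  have u6 : u x * trn (u x) = q x := uu'
  rw [Wz78.dv_mul su C.sp, p1] at e1
  rw [Wz78.dv_mul D.sp su, p2] at e2
  rw [Wz78.dv_mul su contMDiffAt_const, Wz78.dv_mul contMDiffAt_const su, dv_const, dv_const] at e3
  rw [Wz78.dv_mul (Eqv71.sa_trn su) su, Eqv71.dv_trn su, p1] at e5
  simp only [Wz78.dv_mul (D.sρ _) su, Wz78.dv_mul su (C.sρ _), eq_sub_of_add_eq (C.comp a _),
    eq_sub_of_add_eq (D.comp a _), sub_mul, mul_sub, Finset.sum_mul, Finset.mul_sum,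
    smul_mul_assoc, mul_smul_comm, u4] at e4
  rw [Pre.D_def]
  generalize dv I (F.e a) u x = du at *
  set S := du + W a x * u x - u x * A a x with hS
  have t1 : S * p x = S := by
    rw [hS, sub_mul, add_mul, mul_assoc, u1]
    conv_rhs => rw [← e1, mul_neg, mul_sub, ← mul_assoc _ (p x), u1]
    noncomm_ring
  have t2 : q x * S = S := by
    rw [hS, mul_sub, mul_add, ← mul_assoc (q x) (u x), u2]
    conv_rhs => rw [← e2, neg_mul, sub_mul, mul_assoc _ (q x), u2]
    noncomm_ring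
  have t3 : J' * S = S * J := by
    simp only [Pi.zero_apply, mul_zero, zero_mul, add_zero, zero_add] at e3
    rw [hS, mul_sub, mul_add, sub_mul, add_mul, e3, ← mul_assoc, WJ, mul_assoc, ← u3, ← mul_assoc,
      ← mul_assoc, ← u3, mul_assoc (u x), AJ, mul_assoc (u x)]
  have t4 : ∀ b, σ b x * S = S * ρ b x := fun b => by
    have := e4 b
    rw [mul_assoc (W a x), u4, ← mul_assoc (u x) (ρ b x)] at this
    rw [hS, mul_sub, ← mul_assoc _ (u x), u4]
    linear_combination (norm := noncomm_ring) this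
  have k : ∀ {a a' : En ν}, Skw a → Skw a' → a' * u x = u x * a → trn (u x) * a' = a * trn (u x) :=
    fun h h' e => by
      have := congrArg trn e
      rwa [Wz78.trn_mul, Wz78.trn_mul, Eqv71.trn_of_skw h, Eqv71.trn_of_skw h', mul_neg, neg_mul, neg_inj] at this
  have t5 : trn (trn (u x) * S) = -(trn (u x) * S) := by
    have : trn S = trn du - trn (u x) * W a x + A a x * trn (u x) := by
      show star S = star du - star (u x) * W a x + A a x * star (u x)
      rw [hS, star_sub, star_add, star_mul, star_mul, show star (A a x) = _ from Eqv71.trn_of_skw sk,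
        show star (W a x) = _ from Eqv71.trn_of_skw sk']
      noncomm_ring
    rw [Wz78.trn_mul, this, Eqv71.trn_trn, hS, mul_sub, ← mul_assoc _ (u x), u5, add_mul,
      mul_assoc (A a x), u5]
    linear_combination (norm := noncomm_ring) e5
  have e := schur_sk h8 (T := trn (u x) * S)
    (fun v w => by rw [← Eqv71.inner_trn', t5, neg_apply, inner_neg_right])
    (fun b => by rw [mul_assoc, ← t4, ← mul_assoc, k (h8.ρs b) (σs b) (u4 b), mul_assoc])
    (by rw [← mul_assoc, ← k h8.Js J's u3.symm, mul_assoc, t3, mul_assoc]) (by rw [mul_assoc, t1])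
  rw [Wz78.trE_eq, ← mul_smul_comm]
  exact t2.symm.trans (by rw [← u6, mul_assoc]; exact congrArg _ e)

end dif

/-! ### isomorphisms of backgrounds -/

section bg
open Crest.Agent.X212.Sw
variable {κ : Type} [Fintype κ] [DecidableEq ν] {X X' : Mf 4} {nc nc' : ℕ}
  {b : Bg X.I X.M κ lam ν nc} {b' : Bg X'.I X'.M κ lam ν nc'} {φ : OpenPartialHomeomorph X.M X'.M}
  {U : X.M → Option κ → Option κ → ℝ} {u : X.M → En ν} {x : X.M}

variable (b b' φ U u) in
/-- the geometric and the module part of `Bg.Iso` -/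
structure MI0 : Prop where
  g : ∃ v, GEq b.B b.G b'.B b'.G φ U v
  su : ContMDiffOn X.I 𝓘(ℝ, En ν) ∞ u φ.source
  uu : ∀ x ∈ φ.source, trn (u x) ∘L u x = b.m.p x
  uu' : ∀ x ∈ φ.source, u x ∘L trn (u x) = b'.m.p (φ x)
  J : ∀ x ∈ φ.source, u x * b.m.J = b'.m.J * u x
  ρ : ∀ x ∈ φ.source, ∀ j, b'.m.ρ j (φ x) * u x = u x * ∑ a, U x j a • b.m.ρ a x

variable (b b' φ U u) in
/-- the shift of the reference connection -/
def alp (a : Option κ) (x : X.M) : ℝ := -Wz78.trE (b.m.J * (trn (u x) *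
  (b.F.D a u x + (∑ j, U x j a • b'.A j (φ x)) * u x - u x * b.A a x))) / 8

theorem p8_of (hb : b.OK) (x : X.M) : Taub88.P8 (fun i j => b.B.P i j x) (fun i j k l => b.B.o i j k l x)
    (b.m.p x) b.m.J fun i => b.m.ρ i x :=
  ⟨⟨hb.B.pr x, Wz78.exists_on (hb.B.pr x) (hb.B.rk x) (hb.B.o12 · · · · x) (hb.B.o23 · · · · x)
    (hb.B.o34 · · · · x) (hb.B.oP · · · · x) (hb.B.onm x), hb.m.cl x trivial, hb.m.psym x trivial,
    fun a => hb.m.ρsk a x trivial, hb.m.Jsk, fun a => hb.m.Jρ a x trivial, hb.m.Jp x trivial,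
    by rw [hb.m.Jsq, neg_one_mul]⟩, hb.m.prk x trivial⟩

namespace MI0
variable (h : MI0 b b' φ U u) (hb : b.OK)
include h hb

theorem up (hx : x ∈ φ.source) : u x * b.m.p x = u x :=
  mul_src (h.uu x hx) (hb.m.pidem x trivial) (hb.m.psym x trivial)

theorem pu (hx : x ∈ φ.source) : b'.m.p (φ x) * u x = u x := by
  rw [← h.uu' x hx, ← ContinuousLinearMap.mul_def, mul_assoc]
  exact (congrArg _ (h.uu x hx)).trans (h.up hb hx)

theorem ρ' (hx : x ∈ φ.source) (a : Option κ) :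
    (∑ j, U x j a • b'.m.ρ j (φ x)) * u x = u x * b.m.ρ a x := by
  obtain ⟨v, g⟩ := h.g
  simp only [Finset.sum_mul, smul_mul_assoc, h.ρ x hx, ← mul_smul_comm, ← Finset.mul_sum,
    Finset.smul_sum, smul_smul]
  rw [Finset.sum_comm, ← (hb.m.cl x trivial).proj a]
  exact congrArg _ (Finset.sum_congr rfl fun k _ => by rw [← Finset.sum_smul, g.UU x hx])

variable (hb' : b'.OK)
include hb'

theorem A (hx : x ∈ φ.source) (a : Option κ) : b.F.D a u x + (∑ j, U x j a • b'.A j (φ x)) * u x -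
    u x * (b.A a x + alp b b' φ U u a x • b.jp x) = 0 := by
  obtain ⟨v, g⟩ := h.g
  have ev := φ.open_source.eventually_mem hx
  have k := dif_eq ⟨hb.cc.sp x, (hb.cc.sρ · x), (hb.cc.par · x), (hb.cc.comp · · x)⟩
    (CA.pull g hb.G.P hb'.G.P hx (hb'.m.cl _ trivial).proj
      ⟨hb'.cc.sp _, (hb'.cc.sρ · _), (hb'.cc.par · _), (hb'.cc.comp · · _)⟩)
    ((h.su x hx).contMDiffAt (φ.open_source.mem_nhds hx)) (p8_of hb x) a (hb.sk a x)
    (Eqv71.skw_sum _ fun j => hb'.sk j _) (hb.AJ a x) (J' := b'.m.J)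
    (by simp only [Finset.mul_sum, Finset.sum_mul, mul_smul_comm, smul_mul_assoc, hb'.AJ]) hb'.m.Jsk
    (fun _ => Eqv71.skw_sum _ fun j => hb'.m.ρsk j _ trivial) (ev.mono h.uu) (h.uu' x hx)
    (ev.mono fun _ => h.up hb) (ev.mono fun _ => h.pu hb) (ev.mono h.J)
    fun a => ev.mono fun _ hy => h.ρ' hb hy a
  rw [mul_add, ← sub_sub, mul_smul_comm, sub_eq_zero]
  exact k

/-- **an isomorphism of modules is an isomorphism of backgrounds, for the shift `alp`** -/
theorem iso (ms : ∀ x ∈ φ.source, b'.ms (φ x) * u x = u x * b.ms x)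
    (om : ∀ x ∈ φ.source, ∀ s, b'.om (φ x) s = ∑ a, ∑ a', U x s.1 a * U x s.2 a' * b.om x (a, a'))
    (w : b'.w = b.w) : b.Iso b' φ U u (alp b b' φ U u) := by
  obtain ⟨v, g⟩ := h.g
  have R := geq_rot g
  have F := Wz78.gfrm hb.G
  refine ⟨h.g, h.su, fun a x hx => ContMDiffAt.contMDiffWithinAt ?_, fun x hx a => ?_, h.uu, h.uu', h.J,
    h.ρ, fun x hx => h.A hb hb' hx, ms, om, w⟩
  · have su : SA X.I u x := (h.su x hx).contMDiffAt (φ.open_source.mem_nhds hx)
    exact (SA.clm Wz78.trE (SA.mul contMDiffAt_const ((Eqv71.sa_trn su).mul (((F.sD a su).add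
      ((R.sa_pb hx (fun j => hb'.cc.sm j _) a).mul su)).sub (su.mul (hb.cc.sm a x)))))).neg.div_const _
  · have e1 := F.projD a u x
    have e2 : ∑ k, b.B.P a k x • ∑ j, U x j k • b'.A j (φ x) = ∑ j, U x j a • b'.A j (φ x) :=
      R.pj_pb F hx b'.A a
    have e3 := hb.cc.proj a x
    simp only [alp, Pre.D_def]
    rw [← e1, ← e2, ← e3]
    generalize (fun k => ∑ j, U x j k • b'.A j (φ x)) = W at *
    simp only [Finset.sum_mul, Finset.mul_sum, smul_mul_assoc, mul_smul_comm, ← Finset.sum_add_distrib,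
      ← Finset.sum_sub_distrib, ← smul_add, ← smul_sub, map_sum, map_smul, smul_eq_mul, neg_div,
      Finset.sum_div, mul_neg, Finset.sum_neg_distrib, mul_div_assoc]

end MI0

/-- the shift is unique -/
theorem _root_.Crest.Agent.X212.Sw.Bg.Iso.mi0 {α} (h : b.Iso b' φ U u α) : MI0 b b' φ U u :=
  ⟨h.g, h.su, h.uu, h.uu', h.J, h.ρ⟩

theorem _root_.Crest.Agent.X212.Sw.Bg.Iso.eq_alp {α} (h : b.Iso b' φ U u α) (hb : b.OK)
    (hx : x ∈ φ.source) (a : Option κ) : α a x = alp b b' φ U u a x := by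
  have e := h.A x hx a
  have e1 : trn (u x) * u x = b.m.p x := h.uu x hx
  rw [mul_add, ← sub_sub, sub_eq_zero] at e
  rw [alp, e, ← mul_assoc (trn _), e1, Bg.jp, mul_smul_comm, mul_smul_comm, ← mul_assoc (b.m.p x),
    ← hb.m.Jp x trivial, mul_assoc, hb.m.pidem x trivial, ← mul_assoc, hb.m.Jsq, map_smul,
    neg_one_mul, map_neg, Wz78.trE_eq, hb.m.prk x trivial, smul_eq_mul]
  ring

variable {l : Type} [Fintype l] [DecidableEq l] [DecidableEq κ] {b : Bg X.I X.M κ lam (l ⊕ l) nc}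
  {b' : Bg X'.I X'.M κ lam (l ⊕ l) nc'} {m : C8 X.M (Option κ) l} {m' : C8 X'.M (Option κ) l}
  {w : X.M → Matrix l l ℂ}

/-- the real form of a complex intertwiner -/
theorem mi0_of_ci {v} (g : GEq b.B b.G b'.B b'.G φ U v) (hb' : b'.m.On X'.I b'.B.P univ)
    (e : b.m = m.re) (e' : b'.m = m'.re)
    (i : CI X.I m ((m'.comp φ).rot fun x => Matrix.of (U x)) w φ.source) :
    MI0 b b' φ U fun x => rl (w x) := by
  refine ⟨⟨v, g⟩, fun x hx => (i.re hx).1.contMDiffWithinAt, fun x hx => e ▸ (i.re hx).2.1,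
    fun x hx => e' ▸ (i.re hx).2.2.1, fun x hx => e ▸ e' ▸ (i.re hx).2.2.2.1, fun x hx j => ?_⟩
  have k : ∀ a, rl (w x) * b.m.ρ a x = (∑ k, U x k a • b'.m.ρ k (φ x)) * rl (w x) := fun a => by
    rw [e, e']
    refine ((i.re hx).2.2.2.2 a).trans (congrArg (· ∘L _) ?_)
    simp only [C8.re, ← map_smul, ← map_sum]
    rfl
  simp only [Finset.mul_sum, mul_smul_comm, k, ← smul_mul_assoc, ← Finset.sum_mul, Finset.smul_sum,
    smul_smul]
  rw [Finset.sum_comm, ← (hb'.cl _ trivial).proj j]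
  exact congrArg (· * _) (Finset.sum_congr rfl fun k _ => by rw [← Finset.sum_smul, g.UU' x hx])

theorem rl_smul (c : ℂ) (A : Matrix l l ℂ) (v : Eu (l ⊕ l)) : rl (c • A) v = cs (iL l) c (rl A v) := by
  conv_lhs => rw [← Complex.re_add_im c, add_smul, mul_smul, map_add, Complex.coe_smul,
    Complex.coe_smul, map_smul, map_smul, Line51.rl_I_smul]
  rfl

end bg

end Crest.Agent.X212.Gm56
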