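import Crest.Agent.X212.Gm56.Sml
import Crest.Agent.X212.Cyf70.Cyl

/-!
# Row 212, layer S (helper56), GEO-MOD: cross-sections, families of frames, necks, gluing

`exists_end`, `Rp.dfm`, `Rp.fam`, `Rel` (partial diffeomorphisms that relate frames), `exists_nk`,
`glM`, `eq_of_pb` (uniqueness of glued classes), `exists_gau` (normal form of intertwiners on necks).
-/

set_option autoImplicit false
set_option linter.unusedSectionVars false

open Set Filter Topology Function Matrix Module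
open scoped ContDiff Manifold ComplexOrder
open Crest.Agent.X212.Pj41 Crest.Agent.X212.Met55 Crest.Agent.X212.Lab56
open Crest.Agent.X212.Pic56 (HasLog)
open Crest.Agent.X212.Bor5.T (Pb)
open Crest.Agent.X212.Cyf70 (IC ce)
open Crest.Agent.X212.M (Mf)

noncomputable section

namespace Crest.Agent.X212.Gm56

variable {E : Type} [NormedAddCommGroup E] [NormedSpace ℝ E] [FiniteDimensional ℝ E]
  {H : Type} [TopologicalSpace H] {I : ModelWithCorners ℝ E H}
  {M : Type} [TopologicalSpace M] [ChartedSpace H M] [IsManifold I ∞ M]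
  {E' : Type} [NormedAddCommGroup E'] [NormedSpace ℝ E'] [FiniteDimensional ℝ E']
  {H' : Type} [TopologicalSpace H'] {I' : ModelWithCorners ℝ E' H'}
  {N : Type} [TopologicalSpace N] [ChartedSpace H' N] [IsManifold I' ∞ N]
  {E'' : Type} [NormedAddCommGroup E''] [NormedSpace ℝ E''] [FiniteDimensional ℝ E'']
  {H'' : Type} [TopologicalSpace H''] {I'' : ModelWithCorners ℝ E'' H''}
  {Z : Type} [TopologicalSpace Z] [ChartedSpace H'' Z] [IsManifold I'' ∞ Z]
  {ι κ l : Type} [Fintype ι] [Fintype κ] [Fintype l] [DecidableEq ι] [DecidableEq κ] [DecidableEq l]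
  {P : M → Matrix ι ι ℝ} {m : C8 M ι κ} {n : C8 M ι l} {O C U V : Set M} {u v : M → Matrix l κ ℂ}
  {e : ι → VF I M} {d d' : Cls I (univ : Set M)} {x : M}

/-! ### functions -/

theorem fsm_cut {χ f : M → ℝ} (hχ : FSm I χ x) (hU : tsupport χ ⊆ U) (hf : x ∈ U → FSm I f x) :
    FSm I (fun y => χ y * f y) x :=
  MSm.cutoff (a := fun y (_ _ : Unit) => f y) hχ hU (fun h _ _ => hf h) () ()

theorem fsm_cexp {r : M → ℝ} (h : FSm I r x) : FSm I (fun y => Complex.exp (r y * Complex.I)) x := by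
  simpa only [Circle.coe_exp] using fsm_exp h

theorem norm_cexp (r : ℝ) : ‖Complex.exp (r * Complex.I)‖ = 1 := Complex.norm_exp_ofReal_mul_I r

theorem CI.exp (i : CI I m n u O) {r : M → ℝ} (hr : ∀ x ∈ O, FSm I r x) :
    CI I m n (fun x => Complex.exp (r x * Complex.I) • u x) O :=
  i.smul' (fun x hx => fsm_cexp (hr x hx)) fun _ _ => norm_cexp _

theorem CI.ratio (h : m.On I P O) (h' : n.On I P O) (i : CI I m n u O) (j : CI I m n v O) :
    ∃ c : M → ℂ, ∀ x ∈ O, FSm I c x ∧ ‖c x‖ = 1 ∧ v x = c x • u x :=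
  ⟨fun x => ((u x)ᴴ * v x).trace / 4, fun x hx =>
    have k := (i.un x hx).ratio (h.p4 x hx) (h.pc x hx) (h'.pc x hx) (j.un x hx)
    ⟨by simpa only [div_eq_mul_inv] using ((i.sm x hx).ct.mul (j.sm x hx)).trace.mul' contMDiffAt_const,
      k.2, k.1⟩⟩

variable (I) in
/-- smooth unit functions on `O` have smooth logarithms -/
def SL (O : Set M) : Prop := ∀ c : M → ℂ, (∀ x ∈ O, FSm I c x ∧ ‖c x‖ = 1) →
  ∃ r : M → ℝ, ∀ x ∈ O, FSm I r x ∧ c x = Complex.exp (r x * Complex.I)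

theorem exists_arg' (hO : IsOpen O) {c : M → ℂ} (h : ∀ x ∈ O, FSm I c x ∧ ‖c x‖ = 1) (hl : HasLog c O) :
    ∃ r : M → ℝ, ∀ x ∈ O, FSm I r x ∧ c x = Complex.exp (r x * Complex.I) := by
  simpa only [Circle.coe_exp] using exists_arg hO (fun x hx => (h x hx).1) (fun x hx => (h x hx).2) hl

/-- a unit function on a cylinder is its slice times an exponential -/
theorem exists_slice {J : Set ℝ} (hJ : IsOpen J) (hc : OrdConnected J) {s : ℝ} (hs : s ∈ J)
    {c : M × ℝ → ℂ} (h : ∀ z ∈ univ ×ˢ J, FSm (IC I) c z ∧ ‖c z‖ = 1) : ∃ r : M × ℝ → ℝ,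
      ∀ z ∈ univ ×ˢ J, FSm (IC I) r z ∧ c z = c (z.1, s) * Complex.exp (r z * Complex.I) := by
  have n0 : ∀ z ∈ univ ×ˢ J, c z ≠ 0 := fun z hz e => by simpa [e] using (h z hz).2
  have k : ∀ z ∈ univ ×ˢ J, FSm (IC I) (fun z => c z * (c (z.1, s))⁻¹) z ∧ ‖c z * (c (z.1, s))⁻¹‖ = 1 :=
    fun z hz => ⟨(h z hz).1.mul' (FSm.inv' (((h (z.1, s) ⟨trivial, hs⟩).1).comp z
      (contMDiffAt_fst.prodMk contMDiffAt_const)) (n0 _ ⟨trivial, hs⟩)),
      by rw [norm_mul, norm_inv, (h z hz).2, (h _ ⟨trivial, hs⟩).2]; simp⟩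
  obtain ⟨r, hr⟩ := exists_arg' (isOpen_univ.prod hJ) k ((dfm_cyl univ hc hs (mem_singleton s)).hasLog
    (fun z hz => (k z hz).1.continuousAt.continuousWithinAt) (fun z hz e => by simpa [e] using (k z hz).2)
    ((HasLog.const one_ne_zero _).congr fun z hz => by
      rw [show z = (z.1, s) from Prod.ext rfl hz.2]; exact mul_inv_cancel₀ (n0 _ ⟨trivial, hs⟩)))
  exact ⟨r, fun z hz => ⟨(hr z hz).1, by
    rw [← (hr z hz).2, mul_left_comm, mul_inv_cancel₀ (n0 _ ⟨trivial, hs⟩), mul_one]⟩⟩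

theorem SL.cyl (h : SL I (univ : Set M)) {J : Set ℝ} (hJ : IsOpen J) (hc : OrdConnected J) :
    SL (IC I) ((univ : Set M) ×ˢ J) := fun c k => by
  rcases J.eq_empty_or_nonempty with rfl | ⟨s, hs⟩
  · exact ⟨0, fun z hz => hz.2.elim⟩
  obtain ⟨r, hr⟩ := exists_slice hJ hc hs k
  obtain ⟨a, ha⟩ := h (fun y => c (y, s)) fun y _ => ⟨(k (y, s) ⟨trivial, hs⟩).1.comp y
    (contMDiffAt_id.prodMk contMDiffAt_const), (k _ ⟨trivial, hs⟩).2⟩
  exact ⟨fun z => a z.1 + r z, fun z hz => ⟨((ha _ trivial).1.comp z contMDiffAt_fst).add (hr z hz).1, by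
    rw [(hr z hz).2, (ha _ trivial).2, ← Complex.exp_add]; push_cast; ring_nf⟩⟩

theorem SL.map {ψ : OpenPartialHomeomorph N M} (h : SL I' ψ.source)
    (h1 : ContMDiffOn I' I ∞ ψ ψ.source) (h2 : ContMDiffOn I I' ∞ ψ.symm ψ.target) : SL I ψ.target :=
  fun c k => by
    obtain ⟨r, hr⟩ := h (fun y => c (ψ y)) fun y hy => ⟨(k _ (ψ.map_source hy)).1.comp y
      ((h1 y hy).contMDiffAt (ψ.open_source.mem_nhds hy)), (k _ (ψ.map_source hy)).2⟩
    exact ⟨fun x => r (ψ.symm x), fun x hx => ⟨(hr _ (ψ.map_target hx)).1.comp x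
      ((h2 x hx).contMDiffAt (ψ.open_target.mem_nhds hx)), by
        rw [← (hr _ (ψ.map_target hx)).2, ψ.right_inv hx]⟩⟩

/-! ### partial diffeomorphisms that relate frames -/

/-- `ψ` maps the frame `e'` to the frame `e` -/
structure Rel (e' : ι → VF I' N) (e : ι → VF I M) (ψ : OpenPartialHomeomorph N M) : Prop where
  sm : ContMDiffOn I' I ∞ ψ ψ.source
  sm' : ContMDiffOn I I' ∞ ψ.symm ψ.target
  e : ∀ a, ∀ y ∈ ψ.source, mfderiv I' I ψ y (e' a y) = e a (ψ y)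

section rel
variable {e' : ι → VF I' N} {ψ : OpenPartialHomeomorph N M} {k : C8 N ι l} {s : Cls I' (univ : Set N)}

theorem Rel.ld (h : Rel e' e ψ) {y : N} (hy : y ∈ ψ.source) : IsLocalDiffeomorphAt I' I ∞ ψ y :=
  ld_of_oph h.sm h.sm' hy

theorem Rel.sa' (h : Rel e' e ψ) (hx : x ∈ ψ.target) : ContMDiffAt I I' ∞ ψ.symm x :=
  (h.sm' x hx).contMDiffAt (ψ.open_target.mem_nhds hx)

theorem Rel.prj (h : Rel e' e ψ) {y : N} (hy : y ∈ ψ.source) (hs : FAt e' y) : fP e' y = fP e (ψ y) :=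
  fP_rel (h.ld hy) hs.sp fun a => h.e a y hy

theorem Rel.on (h : Rel e' e ψ) {W : Set N} (hW : W ⊆ ψ.source) (he : ∀ y ∈ W, FAt e' y)
    (hk : k.On I' (fP e') W) : (k.comp ψ.symm).On I (fP e) (ψ '' W) :=
  (hk.comp (f := ψ.symm) (W := ψ '' W) (by rintro _ ⟨y, hy, rfl⟩; exact h.sa' (ψ.map_source (hW hy)))
    (by rintro _ ⟨y, hy, rfl⟩; rwa [ψ.left_inv (hW hy)])).congr (by
      rintro _ ⟨y, hy, rfl⟩; rw [ψ.left_inv (hW hy), h.prj (hW hy) (he y hy)])

theorem Rel.ci (h : Rel e' e ψ) {W : Set N} (hW : W ⊆ ψ.source) {w : N → Matrix l κ ℂ}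
    (i : CI I' (m.comp ψ) k w W) : CI I m (k.comp ψ.symm) (fun x => w (ψ.symm x)) (ψ '' W) :=
  (i.comp (f := ψ.symm) (W := ψ '' W) (by rintro _ ⟨y, hy, rfl⟩; exact h.sa' (ψ.map_source (hW hy)))
    (by rintro _ ⟨y, hy, rfl⟩; rwa [ψ.left_inv (hW hy)])).of_eq (by
      rintro _ ⟨y, hy, rfl⟩
      have := ψ.right_inv (ψ.map_source (hW hy))
      exact ⟨(congrArg m.p this).symm, (congrArg m.r this).symm⟩) fun _ _ => ⟨rfl, rfl⟩

variable [T2Space N] [SigmaCompactSpace N] [I'.Boundaryless]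

theorem Rel.pb_iff (h : Rel e' e ψ) {W : Set N} (hW : IsOpen W) (hs : W ⊆ ψ.source) (a : Rp e m d)
    (b : Rp e' k s) : Pb ψ W d s ↔ ∃ u, CI I' (m.comp ψ) k u W :=
  pb_iff_ci hW a b (fun _ hy => h.ld (hs hy)) fun y hy c => h.e c y (hs hy)

/-- literal correspondence gives `Pb` -/
theorem Rel.pb_of_le {k : C8 N ι κ} (h : Rel e' e ψ) {W : Set N} (hW : IsOpen W) (hs : W ⊆ ψ.source)
    (a : Rp e m d) (b : Rp e' k s) (q : LE k (m.comp ψ) W) : Pb ψ W d s :=
  (h.pb_iff hW hs a b).2 ⟨_, q.symm.ci (q.on hW (b.on.mono (subset_univ _)))⟩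

end rel

/-! ### gluing -/

open Classical in
/-- the module glued from `m₁` and `m₂` -/
def glM (l : OpenPartialHomeomorph N M) (r : OpenPartialHomeomorph Z M) (m₁ : C8 N ι κ) (m₂ : C8 Z ι κ) :
    C8 M ι κ := ⟨fun x => if x ∈ l.target then m₁.p (l.symm x) else m₂.p (r.symm x),
  fun a x => if x ∈ l.target then m₁.ρ a (l.symm x) else m₂.ρ a (r.symm x)⟩

section glue
variable {l : OpenPartialHomeomorph N M} {r : OpenPartialHomeomorph Z M} {m₁ : C8 N ι κ} {m₂ : C8 Z ι κ}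
  {e₁ : ι → VF I' N} {e₂ : ι → VF I'' Z}

theorem glM_l : LE m₁ ((glM l r m₁ m₂).comp l) l.source := fun y hy =>
  ⟨(if_pos (l.map_source hy)).trans (by rw [l.left_inv hy]),
    funext fun _ => (if_pos (l.map_source hy)).trans (by rw [l.left_inv hy])⟩

theorem glM_r (q : ∀ y ∈ l.source, ∀ z ∈ r.source, l y = r z → m₁.p y = m₂.p z ∧ m₁.r y = m₂.r z) :
    LE m₂ ((glM l r m₁ m₂).comp r) r.source := fun z hz => by
  by_cases h : r z ∈ l.target
  · have k := q _ (l.map_target h) z hz (l.right_inv h)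
    exact ⟨(if_pos h).trans k.1, funext fun a => (if_pos h).trans (congrFun k.2 a)⟩
  · exact ⟨(if_neg h).trans (by rw [r.left_inv hz]), funext fun _ => (if_neg h).trans (by rw [r.left_inv hz])⟩

theorem le_symm {k : C8 N ι κ} (q : LE k (m.comp l) l.source) : LE (k.comp l.symm) m l.target :=
  fun x hx => by
    have := q _ (l.map_target hx)
    exact ⟨(congrArg m.p (l.right_inv hx)).symm.trans this.1, (congrArg m.r (l.right_inv hx)).symm.trans this.2⟩

theorem on_glM (h₁ : Rel e₁ e l) (h₂ : Rel e₂ e r) (hc : l.target ∪ r.target = univ)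
    (a₁ : ∀ y, FAt e₁ y) (a₂ : ∀ y, FAt e₂ y) (b₁ : m₁.On I' (fP e₁) univ) (b₂ : m₂.On I'' (fP e₂) univ)
    (q : ∀ y ∈ l.source, ∀ z ∈ r.source, l y = r z → m₁.p y = m₂.p z ∧ m₁.r y = m₂.r z) :
    (glM l r m₁ m₂).On I (fP e) univ := on_of_local fun x _ => by
  rcases (hc ▸ mem_univ x : x ∈ l.target ∪ r.target) with h | h
  · exact ⟨_, h, (le_symm glM_l).on l.open_target (l.image_source_eq_target ▸
      h₁.on subset_rfl (fun y _ => a₁ y) (b₁.mono (subset_univ _)))⟩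
  · exact ⟨_, h, (le_symm (glM_r q)).on r.open_target (r.image_source_eq_target ▸
      h₂.on subset_rfl (fun y _ => a₂ y) (b₂.mono (subset_univ _)))⟩

end glue

variable [T2Space M] [SigmaCompactSpace M]

/-- smooth functions on disjoint open sets extend from a closed set -/
theorem exists_fun {α : Type} {O : α → Set M} (hO : ∀ i, IsOpen (O i)) (hd : Pairwise (Disjoint on O))
    (hC : IsClosed C) (hCO : C ⊆ ⋃ i, O i) {θ : α → M → ℝ} (h : ∀ i, ∀ x ∈ O i, FSm I (θ i) x) :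
    ∃ β : M → ℝ, (∀ x, FSm I β x) ∧ (∀ i, ∀ x ∈ C ∩ O i, β x = θ i x) ∧ ∀ x ∉ ⋃ i, O i, β x = 0 := by
  classical
  obtain ⟨χ, hχ⟩ := exists_sqP (I := I) (U := fun b : Bool => cond b (⋃ i, O i) Cᶜ)
    (by rintro (_ | _); exacts [hC.isOpen_compl, isOpen_iUnion hO])
    fun x => (em' (x ∈ C)).elim (fun k => ⟨false, k⟩) fun k => ⟨true, hCO k⟩
  let f : M → ℝ := fun x => if hx : x ∈ ⋃ i, O i then θ (mem_iUnion.1 hx).choose x else 0
  have hf : ∀ i, ∀ x ∈ O i, f x = θ i x := fun i x hx => by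
    have h1 : x ∈ ⋃ i, O i := mem_iUnion.2 ⟨i, hx⟩
    have h2 : (mem_iUnion.1 h1).choose = i := by_contra fun k =>
      disjoint_left.1 (hd k) (mem_iUnion.1 h1).choose_spec hx
    simp only [f, dif_pos h1, h2]
  refine ⟨fun x => χ true x * f x, fun x => fsm_cut (hχ.sm true x) (hχ.supp true) fun hx => ?_,
    fun i x hx => ?_, fun x hx => by simp only [f, dif_neg hx, mul_zero]⟩
  · obtain ⟨i, hi⟩ := mem_iUnion.1 hx
    exact (h i x hi).congr_of_eventuallyEq (eventually_of_mem ((hO i).mem_nhds hi) (hf i))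
  · have h0 : χ false x = 0 := by_contra fun k => hχ.mem (i := false) k hx.1
    have h1 := hχ.sq x
    rw [Fintype.sum_bool, h0] at h1
    show χ true x * f x = _
    rw [show χ true x = 1 by nlinarith [hχ.nonneg true x], one_mul, hf i x hx.2]

/-- isomorphisms on two open sets glue if units on the overlap have logarithms -/
theorem ci_union (hU : IsOpen U) (hV : IsOpen V) (hc : U ∪ V = univ) (h : m.On I P univ)
    (h' : n.On I P univ) (i : CI I m n u U) (j : CI I m n v V) (hl : SL I (U ∩ V)) :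
    ∃ w, CI I m n w univ := by
  obtain ⟨c, hc'⟩ := CI.ratio (h.mono (subset_univ _)) (h'.mono (subset_univ _))
    (i.mono inter_subset_left) (j.mono inter_subset_right)
  obtain ⟨r, hr⟩ := hl c fun x hx => ⟨(hc' x hx).1, (hc' x hx).2.1⟩
  obtain ⟨χ, hχ⟩ := exists_sqP (I := I) (U := fun b : Bool => cond b U V)
    (by rintro (_ | _); exacts [hV, hU]) fun x => by
      rcases (hc ▸ mem_univ x : x ∈ U ∪ V) with k | k
      exacts [⟨true, k⟩, ⟨false, k⟩]
  have sq : ∀ b x, x ∈ cond b V U → FSm I (fun y => χ b y * (χ b y * r y)) x := fun b x hx =>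
    fsm_cut (hχ.sm b x) (hχ.supp b) fun k => FSm.mul' (𝕜 := ℝ) (hχ.sm b x) (hr x (by
      cases b
      exacts [⟨hx, k⟩, ⟨k, hx⟩])).1
  obtain ⟨w, hw, -⟩ := exists_patchI (I := I) (m := m) (n := n) (U := fun b : Bool => cond b U V)
    (by rintro (_ | _); exacts [hV, hU])
    (v := fun b => cond b (fun x => Complex.exp ((χ false x * (χ false x * r x) : ℝ) * Complex.I) • u x)
      fun x => Complex.exp ((-(χ true x * (χ true x * r x)) : ℝ) * Complex.I) • v x)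
    (by rintro (_ | _); exacts [CI.exp j fun x hx => (sq true x hx).neg, CI.exp i (sq false)]) (by
      have key : ∀ x ∈ U ∩ V, Complex.exp ((χ false x * (χ false x * r x) : ℝ) * Complex.I) • u x =
          Complex.exp ((-(χ true x * (χ true x * r x)) : ℝ) * Complex.I) • v x := fun x hx => by
        have h1 := hχ.sq x
        rw [Fintype.sum_bool] at h1
        rw [(hc' x hx).2.2, (hr x hx).2, smul_smul, ← Complex.exp_add, ← add_mul, ← Complex.ofReal_add]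
        congr 4
        linear_combination r x * h1
      rintro (_ | _) (_ | _) x hx
      exacts [rfl, (key x ⟨hx.2, hx.1⟩).symm, key x hx, rfl])
  refine ⟨w, hw.mono fun x _ => ?_⟩
  rcases (hc ▸ mem_univ x : x ∈ U ∪ V) with k | k
  exacts [mem_iUnion.2 ⟨true, k⟩, mem_iUnion.2 ⟨false, k⟩]

/-- literal extension over disjoint open sets -/
theorem exists_exts {α : Type} {O : α → Set M} (hO : ∀ i, IsOpen (O i)) (hd : Pairwise (Disjoint on O))
    (hC : IsClosed C) (hCO : C ⊆ ⋃ i, O i) (h : m.On I P univ) {k : α → C8 M ι l}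
    (hk : ∀ i, (k i).On I P (O i)) (i : ∀ i, ∃ u, CI I m (k i) u (O i)) :
    ∃ (g : C8 M ι (l ⊕ κ)) (w : M → Matrix (l ⊕ κ) κ ℂ), g.On I P univ ∧ CI I m g w univ ∧
      ∀ i, LE (inl κ (k i)) g (C ∩ O i) := by
  have dj : ∀ i j, ∀ x ∈ O i ∩ O j, i = j := fun i j x hx =>
    by_contra fun q => disjoint_left.1 (hd q) hx.1 hx.2
  obtain ⟨a, a1, a2⟩ := exists_patchM hO hk fun i j x hx => by
    obtain rfl := dj i j x hx; exact ⟨rfl, rfl⟩
  choose u hu using i
  obtain ⟨w, w1, -⟩ := exists_patchI (n := a) hO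
    (fun i => (hu i).of_eq (fun _ _ => ⟨rfl, rfl⟩) (a2 i)) fun i j x hx => by
      obtain rfl := dj i j x hx; rfl
  obtain ⟨g, w', g1, g2, g3, -⟩ := exists_ext h (isOpen_iUnion hO) hC hCO a1 w1
  refine ⟨g, w', g1, g2, fun i x hx => ?_⟩
  have k1 := a2 i x hx.2
  exact ⟨(g3 x hx.1).1.trans (congrArg (fromBlocks · 0 0 0) k1.1),
    (g3 x hx.1).2.trans (funext fun c => congrArg (fromBlocks · 0 0 0) (congrFun k1.2 c))⟩

variable [I.Boundaryless]

/-- **uniqueness of glued classes** -/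
theorem eq_of_pb [SecondCountableTopology M] (hd : finrank ℝ E ≤ 4) (he : ∀ x, FAt e x) (hU : IsOpen U)
    (hV : IsOpen V) (hc : U ∪ V = univ) (hl : SL I (U ∩ V))
    (a : d.res (subset_univ U) = d'.res (subset_univ U))
    (b : d.res (subset_univ V) = d'.res (subset_univ V)) : d = d' := by
  obtain ⟨m, h, rfl⟩ := exists_rp (l := Fin 6) hd (by simp) he d
  obtain ⟨n, h', rfl⟩ := exists_rp (l := Fin 6) hd (by simp) he d'
  rw [res_cls, res_cls] at a b
  obtain ⟨u, i⟩ := (cls_eq_iff hU _ _).1 a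
  obtain ⟨v, j⟩ := (cls_eq_iff hV _ _).1 b
  obtain ⟨w, k⟩ := ci_union hU hV hc h.m h'.m ((iw_iff (h.mono (subset_univ _))).1 i)
    ((iw_iff (h.mono (subset_univ _))).1 j) hl
  exact (cls_eq_iff isOpen_univ _ _).2 ⟨w, (iw_iff h).2 k⟩

/-! ### families of frames -/

omit [T2Space M] [SigmaCompactSpace M] [I.Boundaryless] in
theorem nrm_pos {Q S : Matrix ι ι ℝ} (hQ : Prj Q) (hS : Adm Q S) : nrm Q (Q * S) = Q := by
  have t : ∀ A : Matrix ι ι ℝ, Aᴴ = Aᵀ := conjTranspose_eq_transpose_of_trivial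
  have h1 : (Q * S)ᴴ = Q * S := by rw [conjTranspose_mul, hQ.herm, t, hS.symm, hS.comm]
  have h2 : Q * S * Q = Q * S := by rw [Matrix.mul_assoc, hS.comm, ← Matrix.mul_assoc, hQ.idem]
  have h3 : (Q * S + (1 - Q)).PosDef := by
    have k := gram_posDef hQ (a := Met55.sq S * Q) fun v a b => by
      rw [← mulVec_mulVec, a] at b
      exact (mulVec_injective_iff_isUnit.2 (sq_pos hS.pos).isUnit) (b.trans (mulVec_zero _).symm)
    rwa [Pj41.gram, conjTranspose_mul, hQ.herm, t, hS.sq.symm, Matrix.mul_assoc, ← Matrix.mul_assoc (Met55.sq S),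
      sq_mul_sq hS.pos, ← Matrix.mul_assoc, h2] at k
  have h4 : Pj41.gram Q (Q * S) = (Q * S + (1 - Q)) * (Q * S + (1 - Q)) := by
    rw [Pj41.gram, h1]
    simp only [Matrix.add_mul, Matrix.mul_add, Matrix.mul_sub, Matrix.sub_mul, Matrix.mul_one,
      Matrix.one_mul, h2, ← Matrix.mul_assoc, hQ.idem]
    abel
  have h5 : Q * (Q * S + (1 - Q)) = Q * S := by
    rw [Matrix.mul_add, ← Matrix.mul_assoc, Matrix.mul_sub, hQ.idem]; simp
  have h6 := sq_mul_self h3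
  rw [Met55.sq] at h6
  rw [nrm, h4, h6]
  conv_lhs => enter [1]; rw [← h5]
  rw [Matrix.mul_assoc, mul_nonsing_inv _ h3.det_pos.ne'.isUnit, Matrix.mul_one]

/-- a positive change of the frame keeps the class -/
theorem Rp.mix {S : M → Matrix ι ι ℝ} (h : Rp e m d) (sS : ∀ x, MSm I S x)
    (hS : ∀ x, Adm (fP e x) (S x)) : Rp (mixF S e) m d := by
  have he : ∀ x, FAt (mixF S e) x := fun x =>
    ⟨vAt_mixF (sS x) (h.fr x).sm, (h.fr x).sp.mix (hS x).unit⟩
  have hP : ∀ x, fP (mixF S e) x = fP e x := fun x => fP_eq (he x).sp ((hS x).isP (h.fr x).isP)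
  refine h.of_eqv he (h.on.congr fun x _ => hP x)
    ⟨_, h.on.refl.of_eq (fun x hx => ⟨rfl, ?_⟩) fun _ _ => ⟨rfl, rfl⟩⟩
  have := (h.on.pc x hx).rot_self (h.on.p4 x hx).pr.symm
  rw [← this]
  refine congrArg (fun R => rot R (m.r x)) ?_
  show nrm (fP (mixF S e) x) (tm _ _ (Met55.mix (S x) (atx e x))) = fP e x
  rw [hP, tm_mix, (hS x).symm]
  exact nrm_pos (prj_fP (h.fr x).sp) (hS x)

theorem Rp.dfm {A : M → Matrix ι ι ℝ} (h : Rp e m d) (sA : ∀ x, MSm I A x)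
    (hA : ∀ x, Adm (fP e x) (A x)) : Rp (dfm A e) m d :=
  h.mix (fun x => msm_sq (sA x) (hA x).pos (.of_forall fun y => (hA y).symm)) fun x => (hA x).sq

/-- **a smooth family of frames with one projector has one class** -/
theorem Rp.fam {T : Type} [NormedAddCommGroup T] [NormedSpace ℝ T] {e : T → ι → VF I M} {t t' : T}
    (sm : ∀ a t x, VJ I (fun s => e s a) t x) (sp : ∀ t x, Sp (atx (e t) x))
    (hP : ∀ t x, fP (e t) x = P x) (h : Rp (e t) m d) : Rp (e t') m d := by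
  have he : ∀ t x, FAt (e t) x := fun t x => ⟨fun a => (sm a t x).right, sp t x⟩
  have hm : ∀ s, m.On I (fP (e s)) univ := fun s => h.on.congr fun x _ => (hP s x).trans (hP t x).symm
  let γ : ℝ → T := fun r => t + r • (t' - t)
  have sγ : ∀ z : ℝ × M, ContMDiffAt (𝓘(ℝ, ℝ).prod I) (𝓘(ℝ, T).prod I) ∞ (fun z : ℝ × M => (γ z.1, z.2)) z :=
    fun z => ((show ContDiff ℝ ∞ γ by fun_prop).contDiffAt.comp_contMDiffAt contMDiffAt_fst).prodMk
      contMDiffAt_snd
  have h0 : (m.comp Prod.snd).On (𝓘(ℝ, ℝ).prod I) (fun z : ℝ × M => fP (e t) z.2) (univ ×ˢ univ) :=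
    h.on.comp (fun _ _ => contMDiffAt_snd) (mapsTo_univ _ _)
  have h1 := h0.rot (P' := fun z => fP (e t) z.2) (R := fun z => pol (e t) (e (γ z.1)) z.2)
    (fun z _ => MSm.nrm (MSm.comp (f := fun z : ℝ × M => (γ z.1, z.2))
        (mJ_fP (fun a => sm a (γ z.1) z.2) (sp _ _)) (sγ z))
      (MSm.comp (f := fun z : ℝ × M => (γ z.1, z.2)) (mJ_fM (e := fun _ => e t)
        (fun a => VJ.of_fixed ((he t z.2).sm a)) (sp _ _) fun a => sm a (γ z.1) z.2) (sγ z))
      (.of_forall fun y => prj_fP (sp _ _)) (gi_fM (sp _ _) (sp _ _)).pos)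
    fun z _ => by
      have := piso_pol (sp t z.2) (sp (γ z.1) z.2)
      rwa [hP (γ z.1), ← hP t] at this
  obtain ⟨U, a, -⟩ := exists_ci_cyl isOpen_univ h1 h0 (u := m.p)
    (h.on.refl.of_eq (fun x hx => ⟨rfl, by
      show rot (pol (e t) (e (γ 0)) x) (m.r x) = _
      rw [show γ 0 = t by simp [γ]]
      exact h.1.tp_self hx⟩) fun _ _ => ⟨rfl, rfl⟩)
  refine h.of_eqv (he t') (hm t') ⟨_, (a.at 1).of_eq (fun x _ => ⟨rfl, ?_⟩) fun _ _ => ⟨rfl, rfl⟩⟩
  show rot (pol (e t) (e t') x) _ = rot (pol (e t) (e (γ 1)) x) _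
  simp only [γ, one_smul, add_sub_cancel]
  rfl

/-! ### cross-sections and necks -/

/-- **every class of a cylinder has a translation invariant module** -/
theorem exists_end [SecondCountableTopology M] (hd : finrank ℝ E ≤ 3) (hl : 6 ≤ Fintype.card l)
    {e : ι → VF (IC I) (M × ℝ)} (he : ∀ z, FAt e z) (hP : ∀ z, fP e z = fP e (z.1, 0))
    (s : Cls (IC I) (univ : Set (M × ℝ))) : ∃ n : C8 M ι l, Rp e (n.comp Prod.fst) s := by
  obtain ⟨m, h⟩ := exists_rp (l := l) (by rw [finrank_prod, finrank_self]; omega) hl he s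
  have h1 : ((m.comp fun y => (y, 0)).comp Prod.fst).On (IC I) (fP e) univ :=
    (h.on.comp (f := fun z : M × ℝ => (z.1, (0 : ℝ))) (W := univ)
      (fun _ _ => contMDiffAt_fst.prodMk contMDiffAt_const) (mapsTo_univ _ _)).congr fun z _ => hP z
  refine ⟨m.comp fun y => (y, 0), h.of_eqv he h1 ?_⟩
  rw [← univ_prod_univ]
  refine Eqv.cyl isOpen_univ isOpen_univ ordConnected_univ (subset_univ {0}) (singleton_nonempty _)
    (h.1.mono (subset_univ _)) ⟨fun z _ => he z, h1.mono (subset_univ _)⟩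
    (Sc.Eq.eqv (fun z hz => ?_) (h.1.mono (subset_univ _)))
  obtain ⟨y, t⟩ := z
  obtain rfl : t = 0 := hz.2
  exact ⟨rfl, rfl, rfl⟩

omit [T2Space M] [SigmaCompactSpace M] [I.Boundaryless] in
theorem fP_ce (e : ι → VF I M) (z : M × ℝ) : fP (I := IC I) (ce e) z = fP (I := IC I) (ce e) (z.1, 0) :=
  congrArg (prj _) (funext fun a => by cases a <;> rfl)

variable {α : Type} {Y : α → Mf 3} [∀ i, CompactSpace (Y i).M]
  {Ψ : ∀ i, OpenPartialHomeomorph ((Y i).M × ℝ) M}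

/-- **a module of class `d` that is literally the module of the cross-section on the necks** -/
theorem exists_nk [SecondCountableTopology M] (hd : finrank ℝ E ≤ 4) (hl : 6 ≤ Fintype.card κ)
    (he : ∀ x, FAt e x) {c : ∀ i, ι → VF (IC (Y i).I) ((Y i).M × ℝ)} (hr : ∀ i, Rel (c i) e (Ψ i))
    (dj : Pairwise (Disjoint on fun i => (Ψ i).target)) (hC : IsClosed C) (hs : C ⊆ ⋃ i, (Ψ i).target)
    {k : ∀ i, C8 ((Y i).M × ℝ) ι l} {s : ∀ i, Cls (IC (Y i).I) (univ : Set ((Y i).M × ℝ))}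
    (hk : ∀ i, Rp (c i) (k i) (s i)) (d : Cls I (univ : Set M))
    (hp : ∀ i, Pb (Ψ i) (Ψ i).source d (s i)) : ∃ g : C8 M ι (l ⊕ κ), Rp e g d ∧
      ∀ i, LE (inl κ (k i)) (g.comp (Ψ i)) ((Ψ i).source ∩ Ψ i ⁻¹' C) := by
  obtain ⟨m, h⟩ := exists_rp (l := κ) hd hl he d
  obtain ⟨g, w, g1, g2, g3⟩ := exists_exts (fun i => (Ψ i).open_target) dj hC hs h.on
    (k := fun i => (k i).comp (Ψ i).symm)
    (fun i => (Ψ i).image_source_eq_target ▸
      (hr i).on subset_rfl (fun y _ => (hk i).fr y) ((hk i).on.mono (subset_univ _)))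
    fun i => let ⟨_, q⟩ := ((hr i).pb_iff (Ψ i).open_source subset_rfl h (hk i)).1 (hp i)
      ⟨_, (Ψ i).image_source_eq_target ▸ (hr i).ci subset_rfl q⟩
  refine ⟨g, h.of_ci g1 g2, fun i z hz => ?_⟩
  have := g3 i _ ⟨hz.2, (Ψ i).map_source hz.1⟩
  exact ⟨this.1.trans (congrArg (fun y => (inl κ (k i)).p y) ((Ψ i).left_inv hz.1)),
    this.2.trans (congrArg (fun y => (inl κ (k i)).r y) ((Ψ i).left_inv hz.1))⟩

omit [I.Boundaryless] in
/-- **normal form on the necks** : up to a null-homotopic gauge transformation the intertwiner is a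
function of the cross-section, that may be changed by any exponential -/
theorem exists_gau {m' : C8 M ι κ} {u : M → Matrix κ κ ℂ} {J : α → Set ℝ} (hJ : ∀ i, IsOpen (J i))
    (hc : ∀ i, OrdConnected (J i)) (src : ∀ i, (Ψ i).source = univ ×ˢ J i)
    (sm : ∀ i, ContMDiffOn (IC (Y i).I) I ∞ (Ψ i) (Ψ i).source)
    (sm' : ∀ i, ContMDiffOn I (IC (Y i).I) ∞ (Ψ i).symm (Ψ i).target)
    (dj : Pairwise (Disjoint on fun i => (Ψ i).target)) (hC : IsClosed C) (hs : C ⊆ ⋃ i, (Ψ i).target)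
    (h : ∀ i, m.On I P (Ψ i).target) (q : ∀ i, LE m m' (Ψ i).target) (j : ∀ i, CI I m m' u (Ψ i).target) :
    ∃ g : ∀ i, (Y i).M → ℂ, (∀ i y, FSm (Y i).I (g i) y ∧ ‖g i y‖ = 1) ∧
      ∀ χ : ∀ i, (Y i).M → ℝ, (∀ i y, FSm (Y i).I (χ i) y) → ∃ β : M → ℝ, (∀ x, FSm I β x) ∧
        (∀ x ∉ ⋃ i, (Ψ i).target, β x = 0) ∧ ∀ i, ∀ z ∈ (Ψ i).source, Ψ i z ∈ C →
          Complex.exp (β (Ψ i z) * Complex.I) • u (Ψ i z) =
            (g i z.1 * Complex.exp (χ i z.1 * Complex.I)) • m.p (Ψ i z) := by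
  have key : ∀ i, ∃ (g : (Y i).M → ℂ) (r : (Y i).M × ℝ → ℝ), (∀ y, FSm (Y i).I g y ∧ ‖g y‖ = 1) ∧
      ∀ z ∈ (Ψ i).source, FSm (IC (Y i).I) r z ∧
        u (Ψ i z) = (g z.1 * Complex.exp (r z * Complex.I)) • m.p (Ψ i z) := fun i => by
    rcases (J i).eq_empty_or_nonempty with k | ⟨s, hs⟩
    · exact ⟨1, 0, fun _ => ⟨contMDiffAt_const, norm_one⟩, fun z hz => by simp [src, k] at hz⟩
    obtain ⟨c, c1⟩ := CI.ratio (h i) ((q i).on (Ψ i).open_target (h i)) ((q i).ci (h i)) (j i)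
    have c2 : ∀ z ∈ univ ×ˢ J i, FSm (IC (Y i).I) (fun z => c (Ψ i z)) z ∧ ‖c (Ψ i z)‖ = 1 :=
      fun z hz => have k : z ∈ (Ψ i).source := src i ▸ hz
        ⟨(c1 _ ((Ψ i).map_source k)).1.comp z ((sm i z k).contMDiffAt ((Ψ i).open_source.mem_nhds k)),
          (c1 _ ((Ψ i).map_source k)).2.1⟩
    obtain ⟨r, hr⟩ := exists_slice (hJ i) (hc i) hs c2
    exact ⟨fun y => c (Ψ i (y, s)), r, fun y => ⟨ContMDiffAt.comp (f := fun y => (y, s)) y
      (c2 (y, s) ⟨trivial, hs⟩).1 (contMDiffAt_id.prodMk contMDiffAt_const), (c2 _ ⟨trivial, hs⟩).2⟩, fun z hz =>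
        ⟨(hr z (src i ▸ hz)).1, by rw [(c1 _ ((Ψ i).map_source hz)).2.2, (hr z (src i ▸ hz)).2]⟩⟩
  choose g r hg hr using key
  refine ⟨g, hg, fun χ hχ => ?_⟩
  obtain ⟨β, b1, b2, b3⟩ := exists_fun (I := I) (fun i => (Ψ i).open_target) dj hC hs
    (θ := fun i x => χ i ((Ψ i).symm x).1 - r i ((Ψ i).symm x)) fun i x hx =>
      have k := (sm' i x hx).contMDiffAt ((Ψ i).open_target.mem_nhds hx)
      ((hχ i _).comp x (contMDiffAt_fst.comp x k)).sub ((hr i _ ((Ψ i).map_target hx)).1.comp x k)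
  refine ⟨β, b1, b3, fun i z hz hz' => ?_⟩
  rw [b2 i _ ⟨hz', (Ψ i).map_source hz⟩, (Ψ i).left_inv hz, (hr i z hz).2, smul_smul, mul_left_comm,
    ← Complex.exp_add]
  congr 3
  push_cast; ring

end Crest.Agent.X212.Gm56
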